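import Mathlib

/-!
P358: definitions for the classical capacity of the generalized amplitude-damping channel.
-/

namespace Vale.Agent.P358

open Matrix Real
open scoped ComplexOrder

/-- Qubit basis strings of length `n`. -/
abbrev Bits (n : ℕ) := Fin n → Fin 2

/-- The generalized amplitude-damping map, extended linearly from trace-one matrices. -/
noncomputable def gadc (γ ν : ℝ) (X : Matrix (Fin 2) (Fin 2) ℂ) : Matrix (Fin 2) (Fin 2) ℂ :=
  !![(X 0 0 + X 1 1) - ((1 - γ : ℝ) * X 1 1 + (γ * ν : ℝ) * (X 0 0 + X 1 1)),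
      (Real.sqrt (1 - γ) : ℂ) * X 0 1;
    (Real.sqrt (1 - γ) : ℂ) * X 1 0,
      (1 - γ : ℝ) * X 1 1 + (γ * ν : ℝ) * (X 0 0 + X 1 1)]

/-- The `n`-th tensor power of a map on `2×2` matrices, acting on matrices over bit strings. -/
noncomputable def tensorPow (N : Matrix (Fin 2) (Fin 2) ℂ → Matrix (Fin 2) (Fin 2) ℂ) (n : ℕ)
    (X : Matrix (Bits n) (Bits n) ℂ) : Matrix (Bits n) (Bits n) ℂ :=
  Matrix.of fun x y =>
    ∑ a, ∑ b, (∏ i, N (Matrix.single (a i) (b i) (1 : ℂ)) (x i) (y i)) * X a b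

/-- A quantum state: a positive semidefinite matrix of trace one. -/
def IsState {ι : Type} [Fintype ι] (ρ : Matrix ι ι ℂ) : Prop :=
  ρ.PosSemidef ∧ ρ.trace = 1

/-- Sum of `negMulLog` over the eigenvalues (natural logarithm); `0` off the Hermitian matrices. -/
noncomputable def vN {ι : Type} [Fintype ι] [DecidableEq ι] (A : Matrix ι ι ℂ) : ℝ :=
  if h : A.IsHermitian then ∑ i, negMulLog (h.eigenvalues i) else 0

/-- Von Neumann entropy in bits. -/
noncomputable def entropyBits {ι : Type} [Fintype ι] [DecidableEq ι] (A : Matrix ι ι ℂ) : ℝ :=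
  vN A / Real.log 2

/-- All Holevo quantities, in bits, of `N^{⊗n}` over finite ensembles of arbitrary states. -/
def holevoValues (N : Matrix (Fin 2) (Fin 2) ℂ → Matrix (Fin 2) (Fin 2) ℂ) (n : ℕ) : Set ℝ :=
  {r | ∃ (m : ℕ) (w : Fin m → ℝ) (ρ : Fin m → Matrix (Bits n) (Bits n) ℂ),
    (∀ a, 0 ≤ w a) ∧ ∑ a, w a = 1 ∧ (∀ a, IsState (ρ a)) ∧
    r = entropyBits (∑ a, (w a : ℂ) • tensorPow N n (ρ a))
      - ∑ a, w a * entropyBits (tensorPow N n (ρ a))}

/-- The Holevo capacity of `N^{⊗n}`. -/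
noncomputable def holevoChi (N : Matrix (Fin 2) (Fin 2) ℂ → Matrix (Fin 2) (Fin 2) ℂ) (n : ℕ) : ℝ :=
  sSup (holevoValues N n)

/-- The per-use Holevo quantities over all block lengths `n ≥ 1`; their supremum is the classical
capacity. -/
def perUseValues (N : Matrix (Fin 2) (Fin 2) ℂ → Matrix (Fin 2) (Fin 2) ℂ) : Set ℝ :=
  {r | ∃ n : ℕ, 1 ≤ n ∧ ∃ v ∈ holevoValues N n, r = v / n}

/-- Entropy, in bits, of the output of a pure state with excited-state population `q` under
amplitude damping. -/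
noncomputable def pureOut (γ q : ℝ) : ℝ :=
  Real.binEntropy ((1 - Real.sqrt (1 - 4 * γ * (1 - γ) * q ^ 2)) / 2) / Real.log 2

/-- Kronecker product of a family of qubit matrices. -/
noncomputable def piKron {n : ℕ} (A : Fin n → Matrix (Fin 2) (Fin 2) ℂ) :
    Matrix (Bits n) (Bits n) ℂ :=
  Matrix.of fun x y => ∏ i, A i (x i) (y i)

/-- The one-parameter formula for the Holevo capacity of amplitude damping. -/
noncomputable def adFormula (γ : ℝ) : ℝ :=
  sSup ((fun q : ℝ => Real.binEntropy ((1 - γ) * q) / Real.log 2 - pureOut γ q) '' Set.Icc 0 1)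

end Vale.Agent.P358
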