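import Mathlib
import Vale.Agent.P358.Basic

/-!
# P358: properties of the entropy `vN` of `Basic.lean`

`rootEnt` (sum of `negMulLog` over the roots of the characteristic polynomial) is an auxiliary form,
equal to `vN` on Hermitian matrices; it makes the invariance properties immediate.
-/

namespace Vale.Agent.P358

open Matrix Real Finset
open scoped ComplexOrder

variable {ι κ : Type} [Fintype ι] [DecidableEq ι] [Fintype κ] [DecidableEq κ]

/-- von Neumann entropy, natural logarithm. -/
noncomputable def rootEnt (M : Matrix ι ι ℂ) : ℝ :=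
  (M.charpoly.roots.map fun z : ℂ => negMulLog z.re).sum

theorem rootEnt_congr {M : Matrix ι ι ℂ} {N : Matrix κ κ ℂ} (h : M.charpoly = N.charpoly) :
    rootEnt M = rootEnt N := by
  rw [rootEnt, rootEnt, h]

/-- For a Hermitian matrix, `rootEnt` is the sum of `negMulLog` of the eigenvalues. -/
theorem rootEnt_eq_sum {M : Matrix ι ι ℂ} (hM : M.IsHermitian) :
    rootEnt M = ∑ i, negMulLog (hM.eigenvalues i) := by
  rw [rootEnt, hM.roots_charpoly_eq_eigenvalues, Multiset.map_map]
  simp [Function.comp_def]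

@[simp] theorem rootEnt_diagonal (d : ι → ℂ) :
    rootEnt (diagonal d) = ∑ i, negMulLog (d i).re := by
  rw [rootEnt, charpoly_diagonal, Polynomial.roots_prod]
  · simp
  · simp [Finset.prod_ne_zero_iff, Polynomial.X_sub_C_ne_zero]

theorem rootEnt_diagonal_real (d : ι → ℝ) :
    rootEnt (diagonal fun i => (d i : ℂ)) = ∑ i, negMulLog (d i) := by
  simp

@[simp] theorem rootEnt_zero : rootEnt (0 : Matrix ι ι ℂ) = 0 := by
  have h := rootEnt_diagonal (fun _ : ι => (0 : ℂ))
  rw [diagonal_zero] at h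
  simpa using h

theorem rootEnt_reindex (e : ι ≃ κ) (M : Matrix ι ι ℂ) : rootEnt (reindex e e M) = rootEnt M :=
  rootEnt_congr (charpoly_reindex e M)

theorem rootEnt_submatrix_equiv (e : κ ≃ ι) (M : Matrix ι ι ℂ) :
    rootEnt (M.submatrix e e) = rootEnt M := by
  simpa [reindex_apply] using rootEnt_reindex e.symm M

/-- `A * B` and `B * A` have the same entropy, also for rectangular matrices. -/
theorem rootEnt_mul_comm' (A : Matrix ι κ ℂ) (B : Matrix κ ι ℂ) :
    rootEnt (A * B) = rootEnt (B * A) := by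
  have h := congrArg (fun p : Polynomial ℂ => (p.roots.map fun z : ℂ => negMulLog z.re).sum)
    (charpoly_mul_comm' A B)
  have e : ∀ (k : ℕ) (p : Polynomial ℂ), p.Monic →
      ((Polynomial.X ^ k * p).roots.map fun z : ℂ => negMulLog z.re).sum
        = (p.roots.map fun z : ℂ => negMulLog z.re).sum := by
    intro k p hp
    rw [Polynomial.roots_mul (mul_ne_zero (pow_ne_zero _ Polynomial.X_ne_zero) hp.ne_zero),
      Multiset.map_add, Multiset.sum_add, Polynomial.roots_pow, Polynomial.roots_X]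
    simp [Multiset.map_nsmul, Multiset.sum_nsmul]
  simp only [e _ _ (charpoly_monic _)] at h
  exact h

theorem rootEnt_conjTranspose_mul_self (N : Matrix ι κ ℂ) :
    rootEnt (Nᴴ * N) = rootEnt (N * Nᴴ) :=
  rootEnt_mul_comm' _ _

/-- Conjugation by an isometry does not change the entropy. -/
theorem rootEnt_conj_isometry (W : Matrix κ ι ℂ) (hW : Wᴴ * W = 1) (M : Matrix ι ι ℂ) :
    rootEnt (W * M * Wᴴ) = rootEnt M := by
  rw [rootEnt_mul_comm', ← Matrix.mul_assoc, hW, Matrix.one_mul]

theorem rootEnt_conj_unitary (U : Matrix ι ι ℂ) (hU : U * Uᴴ = 1) (M : Matrix ι ι ℂ) :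
    rootEnt (Uᴴ * M * U) = rootEnt M := by
  simpa using rootEnt_conj_isometry Uᴴ (by simpa using hU) M

theorem rootEnt_fromBlocks (A : Matrix ι ι ℂ) (D : Matrix κ κ ℂ) :
    rootEnt (fromBlocks A 0 0 D) = rootEnt A + rootEnt D := by
  rw [rootEnt, charpoly_fromBlocks_zero₁₂,
    Polynomial.roots_mul ((A.charpoly_monic.mul D.charpoly_monic).ne_zero),
    Multiset.map_add, Multiset.sum_add, ← rootEnt, ← rootEnt]

/-- Zero padding. -/
theorem rootEnt_fromBlocks_zero (A : Matrix ι ι ℂ) :
    rootEnt (fromBlocks A 0 0 (0 : Matrix κ κ ℂ)) = rootEnt A := by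
  rw [rootEnt_fromBlocks, rootEnt_zero, add_zero]

/-- A matrix supported on the range of an injective map has the entropy of its restriction. -/
theorem rootEnt_of_supported {f : κ → ι} (hf : Function.Injective f) (M : Matrix ι ι ℂ)
    (hM : ∀ x y, M x y ≠ 0 → x ∈ Set.range f ∧ y ∈ Set.range f) :
    rootEnt M = rootEnt (M.submatrix f f) := by
  let W : Matrix ι κ ℂ := Matrix.of fun x a => if x = f a then 1 else 0
  have hW : Wᴴ * W = 1 := by
    ext a b
    by_cases hab : a = b
    · subst hab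
      simp [W, mul_apply]
    · have hne : f b ≠ f a := fun h => hab (hf h).symm
      simp [W, mul_apply, one_apply_ne hab, hne]
  have hM' : W * M.submatrix f f * Wᴴ = M := by
    ext x y
    simp only [mul_apply, conjTranspose_apply, W, Matrix.of_apply, submatrix_apply]
    by_cases hxy : M x y = 0
    · rw [hxy]
      refine Finset.sum_eq_zero fun b _ => ?_
      by_cases hb : y = f b
      · rw [Finset.sum_eq_zero, zero_mul]
        intro a _
        by_cases ha : x = f a
        · simp [← ha, ← hb, hxy]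
        · simp [ha]
      · simp [hb]
    · obtain ⟨⟨a, rfl⟩, ⟨b, rfl⟩⟩ := hM x y hxy
      simp [hf.eq_iff, apply_ite]
  conv_lhs => rw [← hM']
  exact rootEnt_conj_isometry W hW _

/-! ### Spectral decomposition helpers -/

theorem eigU_mul_conj {M : Matrix ι ι ℂ} (hM : M.IsHermitian) :
    (hM.eigenvectorUnitary : Matrix ι ι ℂ) * (hM.eigenvectorUnitary : Matrix ι ι ℂ)ᴴ = 1 := by
  rw [← star_eq_conjTranspose]
  exact Matrix.mem_unitaryGroup_iff.1 hM.eigenvectorUnitary.2

theorem eigU_conj_mul {M : Matrix ι ι ℂ} (hM : M.IsHermitian) :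
    (hM.eigenvectorUnitary : Matrix ι ι ℂ)ᴴ * (hM.eigenvectorUnitary : Matrix ι ι ℂ) = 1 := by
  rw [← star_eq_conjTranspose, Unitary.coe_star_mul_self]

theorem eq_eigU_diag {M : Matrix ι ι ℂ} (hM : M.IsHermitian) :
    M = (hM.eigenvectorUnitary : Matrix ι ι ℂ) * diagonal (fun i => (hM.eigenvalues i : ℂ))
        * (hM.eigenvectorUnitary : Matrix ι ι ℂ)ᴴ := by
  conv_lhs => rw [hM.spectral_theorem, Unitary.conjStarAlgAut_apply, star_eq_conjTranspose]
  rfl

theorem eigU_conj_self {M : Matrix ι ι ℂ} (hM : M.IsHermitian) :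
    (hM.eigenvectorUnitary : Matrix ι ι ℂ)ᴴ * M * (hM.eigenvectorUnitary : Matrix ι ι ℂ)
      = diagonal (fun i => (hM.eigenvalues i : ℂ)) := by
  have h := eq_eigU_diag hM
  set U : Matrix ι ι ℂ := (hM.eigenvectorUnitary : Matrix ι ι ℂ) with hU
  set D : Matrix ι ι ℂ := diagonal (fun i => (hM.eigenvalues i : ℂ))
  have h1 : Uᴴ * U = 1 := eigU_conj_mul hM
  calc Uᴴ * M * U = Uᴴ * (U * D * Uᴴ) * U := by rw [← h]
    _ = (Uᴴ * U) * D * (Uᴴ * U) := by simp only [Matrix.mul_assoc]
    _ = D := by rw [h1, Matrix.one_mul, Matrix.mul_one]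

theorem sum_eigenvalues_eq_trace {M : Matrix ι ι ℂ} (hM : M.IsHermitian) :
    ∑ i, hM.eigenvalues i = M.trace.re := by
  rw [hM.trace_eq_sum_eigenvalues]
  simp

/-- `S(c M) = c S(M) + negMulLog c * tr M`. -/
theorem rootEnt_smul {M : Matrix ι ι ℂ} (hM : M.IsHermitian) (c : ℝ) :
    rootEnt (c • M) = c * rootEnt M + negMulLog c * M.trace.re := by
  have h1 : c • M = (hM.eigenvectorUnitary : Matrix ι ι ℂ)
      * diagonal (fun i => ((c * hM.eigenvalues i : ℝ) : ℂ))
      * (hM.eigenvectorUnitary : Matrix ι ι ℂ)ᴴ := by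
    conv_lhs => rw [eq_eigU_diag hM]
    rw [← Matrix.smul_mul, ← Matrix.mul_smul, ← diagonal_smul]
    congr; funext i; simp
  rw [h1, rootEnt_conj_isometry _ (eigU_conj_mul hM), rootEnt_diagonal_real, rootEnt_eq_sum hM,
    ← sum_eigenvalues_eq_trace hM, Finset.mul_sum, Finset.mul_sum, ← Finset.sum_add_distrib]
  refine Finset.sum_congr rfl fun i _ => ?_
  rw [negMulLog_mul]; ring

/-! ### Diagonal bound, concavity -/

/-- The entropy is at most the Shannon entropy of the diagonal. -/
theorem rootEnt_le_sum_diag {M : Matrix ι ι ℂ} (hM : M.PosSemidef) :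
    rootEnt M ≤ ∑ i, negMulLog (M i i).re := by
  set U : Matrix ι ι ℂ := (hM.1.eigenvectorUnitary : Matrix ι ι ℂ) with hU
  set l := hM.1.eigenvalues
  have hd : ∀ i, (M i i).re = ∑ j, Complex.normSq (U i j) * l j := by
    intro i
    have h := congrFun (congrFun (eq_eigU_diag hM.1) i) i
    rw [h, Matrix.mul_apply, Complex.re_sum]
    refine Finset.sum_congr rfl fun j _ => ?_
    simp only [mul_diagonal, conjTranspose_apply, ← hU]
    simp [Complex.normSq_apply, Complex.mul_re, Complex.mul_im, l]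
    ring
  have hUU : U * Uᴴ = 1 := eigU_mul_conj hM.1
  have hUU' : Uᴴ * U = 1 := eigU_conj_mul hM.1
  clear_value U
  have hrow : ∀ i, ∑ j, Complex.normSq (U i j) = 1 := by
    intro i
    have h := congrArg Complex.re (congrFun (congrFun hUU i) i)
    rw [Matrix.mul_apply, Complex.re_sum] at h
    simpa [Complex.normSq_apply, Complex.mul_re] using h
  have hcol : ∀ j, ∑ i, Complex.normSq (U i j) = 1 := by
    intro j
    have h := congrArg Complex.re (congrFun (congrFun hUU' j) j)
    rw [Matrix.mul_apply, Complex.re_sum] at h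
    simpa [Complex.normSq_apply, Complex.mul_re] using h
  calc rootEnt M = ∑ j, (∑ i, Complex.normSq (U i j)) * negMulLog (l j) := by
        rw [rootEnt_eq_sum hM.1]; simp [hcol, l]
    _ = ∑ i, ∑ j, Complex.normSq (U i j) • negMulLog (l j) := by
        rw [Finset.sum_comm]; simp [Finset.sum_mul]
    _ ≤ ∑ i, negMulLog (∑ j, Complex.normSq (U i j) • l j) :=
        Finset.sum_le_sum fun i _ => concaveOn_negMulLog.le_map_sum
          (fun j _ => Complex.normSq_nonneg _) (hrow i) (fun j _ => hM.eigenvalues_nonneg j)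
    _ = _ := by simp [hd]

/-- The entropy is at most the Shannon entropy of the diagonal in any orthonormal basis. -/
theorem rootEnt_le_sum_diag_conj {M : Matrix ι ι ℂ} (hM : M.PosSemidef) (U : Matrix ι ι ℂ)
    (hU : U * Uᴴ = 1) : rootEnt M ≤ ∑ i, negMulLog ((Uᴴ * M * U) i i).re := by
  rw [← rootEnt_conj_unitary U hU M]
  exact rootEnt_le_sum_diag (hM.conjTranspose_mul_mul_same U)

/-- Concavity of the entropy. -/
theorem rootEnt_concave {α : Type*} (s : Finset α) (w : α → ℝ) (M : α → Matrix ι ι ℂ)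
    (hw : ∀ a ∈ s, 0 ≤ w a) (hw1 : ∑ a ∈ s, w a = 1) (hM : ∀ a ∈ s, (M a).PosSemidef) :
    ∑ a ∈ s, w a * rootEnt (M a) ≤ rootEnt (∑ a ∈ s, w a • M a) := by
  set R := ∑ a ∈ s, w a • M a with hR
  have hRh : R.IsHermitian := by
    rw [hR]
    unfold Matrix.IsHermitian
    rw [conjTranspose_sum]
    refine Finset.sum_congr rfl fun a ha => ?_
    rw [conjTranspose_smul, (hM a ha).1.eq, star_trivial]
  set U : Matrix ι ι ℂ := (hRh.eigenvectorUnitary : Matrix ι ι ℂ)
  have hl : ∀ i, hRh.eigenvalues i = ∑ a ∈ s, w a • ((Uᴴ * M a * U) i i).re := by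
    intro i
    have h : Uᴴ * R * U = diagonal (fun j => (hRh.eigenvalues j : ℂ)) := eigU_conj_self hRh
    rw [show Uᴴ * R * U = ∑ a ∈ s, w a • (Uᴴ * M a * U) by
      rw [hR, Matrix.mul_sum, Matrix.sum_mul]
      simp only [Matrix.mul_smul, Matrix.smul_mul]] at h
    have h2 := congrArg Complex.re (congrFun (congrFun h i) i)
    simp only [Matrix.sum_apply, Matrix.smul_apply, Complex.re_sum, Complex.smul_re,
      diagonal_apply_eq, Complex.ofReal_re] at h2
    exact h2.symm
  calc ∑ a ∈ s, w a * rootEnt (M a)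
      ≤ ∑ a ∈ s, w a * ∑ i, negMulLog ((Uᴴ * M a * U) i i).re :=
        Finset.sum_le_sum fun a ha => mul_le_mul_of_nonneg_left
          (rootEnt_le_sum_diag_conj (hM a ha) U (eigU_mul_conj hRh)) (hw a ha)
    _ = ∑ i, ∑ a ∈ s, w a • negMulLog ((Uᴴ * M a * U) i i).re := by
        simp only [Finset.mul_sum, smul_eq_mul]; rw [Finset.sum_comm]
    _ ≤ ∑ i, negMulLog (∑ a ∈ s, w a • ((Uᴴ * M a * U) i i).re) :=
        Finset.sum_le_sum fun i _ => concaveOn_negMulLog.le_map_sum hw hw1 fun a ha => by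
          have := ((hM a ha).conjTranspose_mul_mul_same U).diag_nonneg (i := i)
          exact (Complex.le_def.1 this).1
    _ = rootEnt R := by rw [rootEnt_eq_sum hRh]; simp [hl]

/-! ### The interface for `vN` -/

theorem vN_eq_rootEnt {A : Matrix ι ι ℂ} (hA : A.IsHermitian) : vN A = rootEnt A := by
  rw [vN, dif_pos hA, rootEnt_eq_sum hA]

theorem vN_eq_roots {A : Matrix ι ι ℂ} (hA : A.IsHermitian) :
    vN A = (A.charpoly.roots.map (fun z => negMulLog z.re)).sum :=
  vN_eq_rootEnt hA

theorem vN_submatrix (e : κ ≃ ι) (A : Matrix ι ι ℂ) : vN (A.submatrix e e) = vN A := by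
  by_cases hA : A.IsHermitian
  · rw [vN_eq_rootEnt (hA.submatrix e), vN_eq_rootEnt hA, rootEnt_submatrix_equiv]
  · have : ¬ (A.submatrix e e).IsHermitian := by rwa [Matrix.isHermitian_submatrix_equiv]
    rw [vN, vN, dif_neg this, dif_neg hA]

theorem vN_mul_conjTranspose_comm (B : Matrix ι κ ℂ) : vN (Bᴴ * B) = vN (B * Bᴴ) := by
  rw [vN_eq_rootEnt (isHermitian_conjTranspose_mul_self B),
    vN_eq_rootEnt (isHermitian_mul_conjTranspose_self B), rootEnt_conjTranspose_mul_self]

theorem vN_isometry_conj (W : Matrix κ ι ℂ) (hW : Wᴴ * W = 1) (A : Matrix ι ι ℂ) :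
    vN (W * A * Wᴴ) = vN A := by
  by_cases hA : A.IsHermitian
  · rw [vN_eq_rootEnt (isHermitian_mul_mul_conjTranspose W hA), vN_eq_rootEnt hA,
      rootEnt_conj_isometry W hW]
  · have : ¬ (W * A * Wᴴ).IsHermitian := by
      intro h
      apply hA
      have h2 := isHermitian_conjTranspose_mul_mul W h
      simp only [Matrix.mul_assoc, hW, Matrix.mul_one] at h2
      rwa [← Matrix.mul_assoc, hW, Matrix.one_mul] at h2
    rw [vN, vN, dif_neg this, dif_neg hA]

theorem vN_unitary_conj {U : Matrix ι ι ℂ} (hU : U ∈ Matrix.unitaryGroup ι ℂ) (A : Matrix ι ι ℂ) :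
    vN (U * A * Uᴴ) = vN A :=
  vN_isometry_conj U (Matrix.mem_unitaryGroup_iff'.1 hU) A

theorem vN_diagonal (d : ι → ℝ) :
    vN (diagonal (fun i => (d i : ℂ))) = ∑ i, negMulLog (d i) := by
  rw [vN_eq_rootEnt (isHermitian_diagonal_of_self_adjoint _ (by
    funext i; exact Complex.conj_ofReal _)), rootEnt_diagonal_real]

theorem vN_smul {A : Matrix ι ι ℂ} (hA : A.PosSemidef) {c : ℝ} (_hc : 0 ≤ c) :
    vN ((c : ℂ) • A) = c * vN A + negMulLog c * A.trace.re := by
  have h : (c : ℂ) • A = c • A := by ext i j; simp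
  have hh : (c • A).IsHermitian := by
    unfold Matrix.IsHermitian; rw [conjTranspose_smul, hA.1.eq, star_trivial]
  rw [h, vN_eq_rootEnt hh, vN_eq_rootEnt hA.1, rootEnt_smul hA.1]

theorem vN_le_diag {A : Matrix ι ι ℂ} (hA : A.PosSemidef) :
    vN A ≤ ∑ i, negMulLog (A i i).re := by
  rw [vN_eq_rootEnt hA.1]; exact rootEnt_le_sum_diag hA

theorem vN_concave {J : Type*} [Fintype J] (w : J → ℝ) (A : J → Matrix ι ι ℂ)
    (hw : ∀ j, 0 ≤ w j) (hw1 : ∑ j, w j = 1) (hA : ∀ j, (A j).PosSemidef) :
    ∑ j, w j * vN (A j) ≤ vN (∑ j, (w j : ℂ) • A j) := by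
  have h : ∀ j, (w j : ℂ) • A j = w j • A j := fun j => by ext x y; simp
  have hh : (∑ j, w j • A j).IsHermitian := by
    unfold Matrix.IsHermitian
    rw [conjTranspose_sum]
    exact Finset.sum_congr rfl fun j _ => by rw [conjTranspose_smul, (hA j).1.eq, star_trivial]
  simp only [h, fun j => vN_eq_rootEnt (hA j).1, vN_eq_rootEnt hh]
  exact rootEnt_concave Finset.univ w A (fun j _ => hw j) hw1 (fun j _ => hA j)

/-- Entropy of a `1 × 1` matrix. -/
theorem vN_unique [Unique ι] {A : Matrix ι ι ℂ} (hA : A.IsHermitian) :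
    vN A = negMulLog (A default default).re := by
  have h : A = diagonal fun _ => A default default := by
    ext x y
    rw [Subsingleton.elim x default, Subsingleton.elim y default, diagonal_apply_eq]
  rw [vN_eq_rootEnt hA]
  conv_lhs => rw [h]
  simp

theorem vN_zero : vN (0 : Matrix ι ι ℂ) = 0 := by
  rw [vN_eq_rootEnt isHermitian_zero, rootEnt_zero]

/-- Additivity over diagonal blocks. -/
theorem vN_fromBlocks {A : Matrix ι ι ℂ} {D : Matrix κ κ ℂ} (hA : A.IsHermitian)
    (hD : D.IsHermitian) : vN (fromBlocks A 0 0 D) = vN A + vN D := by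
  rw [vN_eq_rootEnt (IsHermitian.fromBlocks hA (by simp) hD), vN_eq_rootEnt hA,
    vN_eq_rootEnt hD, rootEnt_fromBlocks]

/-- A Hermitian matrix supported on the range of an injection has the entropy of its restriction. -/
theorem vN_of_supported {f : κ → ι} (hf : Function.Injective f) {A : Matrix ι ι ℂ}
    (hA : A.IsHermitian) (h : ∀ x y, A x y ≠ 0 → x ∈ Set.range f ∧ y ∈ Set.range f) :
    vN A = vN (A.submatrix f f) := by
  rw [vN_eq_rootEnt hA, vN_eq_rootEnt (hA.submatrix f), rootEnt_of_supported hf A h]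

/-- The shifted determinant through the eigenvalues. -/
theorem det_add_smul_one {A : Matrix ι ι ℂ} (hA : A.IsHermitian) (t : ℝ) :
    (A + (t : ℂ) • 1).det = ((∏ i, (hA.eigenvalues i + t) : ℝ) : ℂ) := by
  have hU := eigU_mul_conj hA
  have h := eq_eigU_diag hA
  set U : Matrix ι ι ℂ := (hA.eigenvectorUnitary : Matrix ι ι ℂ)
  have h2 : A + (t : ℂ) • 1 = U * diagonal (fun i => ((hA.eigenvalues i + t : ℝ) : ℂ)) * Uᴴ := by
    conv_lhs => rw [← hU, h]
    have : diagonal (fun i => ((hA.eigenvalues i + t : ℝ) : ℂ))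
        = diagonal (fun i => (hA.eigenvalues i : ℂ)) + (t : ℂ) • (1 : Matrix ι ι ℂ) := by
      rw [← diagonal_one, ← diagonal_smul, diagonal_add]
      congr; funext i; simp
    rw [this, Matrix.mul_add, Matrix.add_mul, Matrix.mul_smul, Matrix.smul_mul, Matrix.mul_one]
  rw [h2, det_mul_right_comm, hU, Matrix.one_mul, det_diagonal, Complex.ofReal_prod]

/-- Spectral decomposition into unnormalised pure states. -/
theorem exists_pure_decomp {A : Matrix ι ι ℂ} (hA : A.PosSemidef) :
    ∃ psi : ι → ι → ℂ, A = ∑ j, vecMulVec (psi j) (star (psi j)) := by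
  set U : Matrix ι ι ℂ := (hA.1.eigenvectorUnitary : Matrix ι ι ℂ) with hU
  refine ⟨fun j x => (Real.sqrt (hA.1.eigenvalues j) : ℂ) * U x j, ?_⟩
  have h := eq_eigU_diag hA.1
  rw [← hU] at h
  clear_value U
  conv_lhs => rw [h]
  ext x y
  rw [Matrix.sum_apply, Matrix.mul_apply]
  refine Finset.sum_congr rfl fun j _ => ?_
  have hs : (Real.sqrt (hA.1.eigenvalues j) : ℂ) * (Real.sqrt (hA.1.eigenvalues j) : ℂ)
      = (hA.1.eigenvalues j : ℂ) := by
    rw [← Complex.ofReal_mul, Real.mul_self_sqrt (hA.eigenvalues_nonneg j)]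
  simp only [mul_diagonal, conjTranspose_apply, vecMulVec_apply, Pi.star_apply, star_mul',
    Complex.star_def, Complex.conj_ofReal]
  rw [← hs]; ring

/-- Entropy of a qubit state from its determinant. -/
theorem vN_two {rho : Matrix (Fin 2) (Fin 2) ℂ} (h : IsState rho) :
    vN rho = binEntropy ((1 - Real.sqrt (1 - 4 * rho.det.re)) / 2) := by
  have hH := h.1.1
  have hsum : hH.eigenvalues 0 + hH.eigenvalues 1 = 1 := by
    have := sum_eigenvalues_eq_trace hH
    rw [h.2, Fin.sum_univ_two] at this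
    simpa using this
  have hdet : rho.det.re = hH.eigenvalues 0 * hH.eigenvalues 1 := by
    rw [hH.det_eq_prod_eigenvalues, Fin.prod_univ_two]
    simp
  rw [vN, dif_pos hH, Fin.sum_univ_two, hdet]
  set a := hH.eigenvalues 0
  set b := hH.eigenvalues 1
  have hb : b = 1 - a := by linarith
  have hsq : 1 - 4 * (a * b) = (2 * a - 1) ^ 2 := by rw [hb]; ring
  rw [hsq, Real.sqrt_sq_eq_abs]
  have he : negMulLog a + negMulLog b = binEntropy a := by
    rw [hb, binEntropy_eq_negMulLog_add_negMulLog_one_sub]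
  rw [he]
  rcases le_total 0 (2 * a - 1) with hc | hc
  · rw [abs_of_nonneg hc, show (1 - (2 * a - 1)) / 2 = 1 - a by ring, binEntropy_one_sub]
  · rw [abs_of_nonpos hc, show (1 - -(2 * a - 1)) / 2 = a by ring]

/-! ### Bit strings -/

/-- Split a sum according to the bit at site `i`. -/
private theorem sum_eq_zero_add_one {n : ℕ} (p : Bits n → ℝ) (i : Fin n) :
    ∑ x, p x = ∑ x with x i = 0, p x + ∑ x with x i = 1, p x := by
  rw [← Finset.sum_filter_add_sum_filter_not Finset.univ (fun x : Bits n => x i = 0) p]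
  congr 1
  refine Finset.sum_congr (Finset.filter_congr fun x _ => ?_) fun _ _ => rfl
  omega

/-- Classical subadditivity. -/
theorem sum_negMulLog_le_binEntropy {n : ℕ} (p : Bits n → ℝ) (hp : ∀ x, 0 ≤ p x)
    (hp1 : ∑ x, p x = 1) :
    ∑ x, negMulLog (p x) ≤ ∑ i, binEntropy (∑ x with x i = 1, p x) := by
  classical
  set q : Fin n → Fin 2 → ℝ := fun i a => ∑ x with x i = a, p x with hq
  have hq0 : ∀ i a, 0 ≤ q i a := fun i a => Finset.sum_nonneg fun x _ => hp x
  have hqsum : ∀ i, q i 0 + q i 1 = 1 := fun i => by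
    rw [← hp1, sum_eq_zero_add_one p i]
  have hpq : ∀ x i, p x ≤ q i (x i) := fun x i =>
    Finset.single_le_sum (f := p) (fun y _ => hp y) (by simp)
  have key : ∀ x, negMulLog (p x)
      ≤ (∑ i, -(p x * Real.log (q i (x i)))) + (∏ i, q i (x i) - p x) := by
    intro x
    rcases (hp x).lt_or_eq with hx | hx
    · have hqpos : ∀ i, 0 < q i (x i) := fun i => hx.trans_le (hpq x i)
      have hprod : 0 < ∏ i, q i (x i) := Finset.prod_pos fun i _ => hqpos i
      have hlog := Real.log_le_sub_one_of_pos (div_pos hprod hx)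
      rw [Real.log_div hprod.ne' hx.ne', Real.log_prod fun i _ => (hqpos i).ne'] at hlog
      have h2 := mul_le_mul_of_nonneg_left hlog (hp x)
      have h3 : p x * ((∏ i, q i (x i)) / p x - 1) = ∏ i, q i (x i) - p x := by
        field_simp
      rw [h3] at h2
      rw [negMulLog, Finset.sum_neg_distrib, ← Finset.mul_sum]
      linarith
    · simp [← hx, Finset.prod_nonneg fun i _ => hq0 i (x i)]
  calc ∑ x, negMulLog (p x)
      ≤ ∑ x, ((∑ i, -(p x * Real.log (q i (x i)))) + (∏ i, q i (x i) - p x)) :=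
        Finset.sum_le_sum fun x _ => key x
    _ = ∑ i, ∑ x, -(p x * Real.log (q i (x i))) := by
        rw [Finset.sum_add_distrib, Finset.sum_sub_distrib, hp1, ← Fintype.prod_sum,
          Finset.sum_comm]
        simp [Fin.sum_univ_two, hqsum]
    _ = ∑ i, binEntropy (∑ x with x i = 1, p x) := by
        refine Finset.sum_congr rfl fun i _ => ?_
        rw [binEntropy_eq_negMulLog_add_negMulLog_one_sub,
          ← Finset.sum_fiberwise Finset.univ (fun x : Bits n => x i) _, Fin.sum_univ_two]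
        have hs : ∀ a, ∑ x with x i = a, -(p x * Real.log (q i (x i))) = negMulLog (q i a) := by
          intro a
          rw [negMulLog, neg_mul, Finset.sum_neg_distrib]
          congr 1
          rw [show q i a = ∑ x with x i = a, p x from rfl, Finset.sum_mul]
          refine Finset.sum_congr rfl fun x hx => ?_
          rw [(Finset.mem_filter.1 hx).2]
        rw [hs, hs, show 1 - ∑ x with x i = 1, p x = q i 0 by linarith [hqsum i], add_comm]

theorem vN_le_marginals {n : ℕ} {rho : Matrix (Bits n) (Bits n) ℂ} (h : IsState rho) :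
    vN rho ≤ ∑ i, binEntropy (∑ x with x i = 1, (rho x x).re) := by
  refine (vN_le_diag h.1).trans (sum_negMulLog_le_binEntropy _ (fun x => ?_) ?_)
  · exact (Complex.le_def.1 h.1.diag_nonneg).1
  · have := congrArg Complex.re h.2
    rw [Matrix.trace, Complex.re_sum] at this
    simpa using this

theorem piKron_mul {n : ℕ} (A B : Fin n → Matrix (Fin 2) (Fin 2) ℂ) :
    piKron A * piKron B = piKron fun i => A i * B i := by
  ext x y
  simp only [piKron, Matrix.mul_apply, Matrix.of_apply, ← Finset.prod_mul_distrib,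
    Fintype.prod_sum]

theorem piKron_conjTranspose {n : ℕ} (A : Fin n → Matrix (Fin 2) (Fin 2) ℂ) :
    (piKron A)ᴴ = piKron fun i => (A i)ᴴ := by
  ext x y
  simp [piKron, star_prod]

theorem piKron_diagonal {n : ℕ} (d : Fin n → Fin 2 → ℂ) :
    piKron (fun i => diagonal (d i)) = diagonal fun x => ∏ i, d i (x i) := by
  ext x y
  by_cases hxy : x = y
  · subst hxy; simp [piKron]
  · obtain ⟨i, hi⟩ := Function.ne_iff.1 hxy
    rw [diagonal_apply_ne _ hxy]
    exact Finset.prod_eq_zero (Finset.mem_univ i) (diagonal_apply_ne _ hi)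

private theorem negMulLog_prod {I : Type*} [DecidableEq I] (s : Finset I) (a : I → ℝ) :
    negMulLog (∏ i ∈ s, a i) = ∑ i ∈ s, negMulLog (a i) * ∏ j ∈ s.erase i, a j := by
  induction s using Finset.induction_on with
  | empty => simp
  | insert k s hk ih =>
    rw [Finset.prod_insert hk, negMulLog_mul, ih, Finset.sum_insert hk, Finset.erase_insert hk,
      Finset.mul_sum]
    congr 1
    · ring
    · refine Finset.sum_congr rfl fun i hi => ?_
      have hne : k ≠ i := fun h => hk (h ▸ hi)
      rw [Finset.erase_insert_of_ne hne,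
        Finset.prod_insert (fun h => hk (Finset.mem_of_mem_erase h))]
      ring

/-- Additivity of the entropy on product states. -/
theorem vN_piKron {n : ℕ} {A : Fin n → Matrix (Fin 2) (Fin 2) ℂ} (h : ∀ i, IsState (A i)) :
    vN (piKron A) = ∑ i, vN (A i) := by
  classical
  let U : Fin n → Matrix (Fin 2) (Fin 2) ℂ := fun i => ((h i).1.1.eigenvectorUnitary : Matrix _ _ ℂ)
  let l : Fin n → Fin 2 → ℝ := fun i => (h i).1.1.eigenvalues
  have hA : piKron A = piKron U * piKron (fun i => diagonal fun a => (l i a : ℂ)) * (piKron U)ᴴ := by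
    rw [piKron_conjTranspose, piKron_mul, piKron_mul]
    exact congrArg piKron (funext fun i => eq_eigU_diag (h i).1.1)
  have hU : (piKron U)ᴴ * piKron U = 1 := by
    rw [piKron_conjTranspose, piKron_mul]
    have : (fun i => (U i)ᴴ * U i) = fun _ : Fin n => diagonal fun _ : Fin 2 => (1 : ℂ) := by
      funext i; rw [diagonal_one]; exact eigU_conj_mul (h i).1.1
    rw [this, piKron_diagonal]
    simp
  rw [hA, vN_isometry_conj _ hU, piKron_diagonal]
  simp only [← Complex.ofReal_prod]
  rw [vN_diagonal]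
  simp only [negMulLog_prod]
  rw [Finset.sum_comm]
  refine Finset.sum_congr rfl fun i _ => ?_
  rw [vN, dif_pos (h i).1.1]
  have hl : ∀ j, ∑ a, l j a = 1 := fun j => by
    rw [show ∑ a, l j a = (A j).trace.re from sum_eigenvalues_eq_trace (h j).1.1, (h j).2]
    simp
  have hfac : ∀ x : Bits n, negMulLog (l i (x i)) * ∏ j ∈ Finset.univ.erase i, l j (x j)
      = ∏ j, Function.update l i (fun a => negMulLog (l i a)) j (x j) := by
    intro x
    rw [← Finset.mul_prod_erase Finset.univ _ (Finset.mem_univ i), Function.update_self]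
    congr 1
    refine Finset.prod_congr rfl fun j hj => ?_
    rw [Function.update_of_ne (Finset.ne_of_mem_erase hj)]
  simp only [hfac]
  rw [← Fintype.prod_sum, ← Finset.mul_prod_erase Finset.univ _ (Finset.mem_univ i),
    Function.update_self, Finset.prod_eq_one, mul_one]
  intro j hj
  rw [Function.update_of_ne (Finset.ne_of_mem_erase hj)]
  exact hl j

end Vale.Agent.P358
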