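import Vale.Agent.P358.Channel
import Vale.Agent.P358.Entropy

/-!
P358: the product ensemble achieving the one-parameter formula.
-/

namespace Vale.Agent.P358

open Matrix Real
open scoped ComplexOrder MatrixOrder

/-- `√q` or `-√q` according to the label. -/
noncomputable def sgnAmp (b : Fin 2) (q : ℝ) : ℝ :=
  if b = 0 then Real.sqrt q else -Real.sqrt q

/-- The pure qubit input with populations `1 - q`, `q` and phase `b`. -/
noncomputable def signVec (q : ℝ) (b : Fin 2) : Fin 2 → ℂ :=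
  ![(Real.sqrt (1 - q) : ℂ), (sgnAmp b q : ℂ)]

/-- The corresponding state. -/
noncomputable def signState (q : ℝ) (b : Fin 2) : Matrix (Fin 2) (Fin 2) ℂ :=
  vecMulVec (signVec q b) (star (signVec q b))

lemma sgnAmp_sq {q : ℝ} (hq : 0 ≤ q) (b : Fin 2) : sgnAmp b q * sgnAmp b q = q := by
  unfold sgnAmp; split_ifs <;> simp [Real.mul_self_sqrt hq]

lemma signState_isState {q : ℝ} (h0 : 0 ≤ q) (h1 : q ≤ 1) (b : Fin 2) :
    IsState (signState q b) := by
  refine ⟨posSemidef_vecMulVec_self_star _, ?_⟩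
  rw [Matrix.trace_fin_two]
  simp only [signState, vecMulVec_apply, Pi.star_apply]
  simp [signVec, ← Complex.ofReal_mul,
    Real.mul_self_sqrt (sub_nonneg.mpr h1), sgnAmp_sq h0]

lemma piKron_isState {n : ℕ} {A : Fin n → Matrix (Fin 2) (Fin 2) ℂ}
    (h : ∀ i, IsState (A i)) : IsState (piKron A) := by
  constructor
  · choose C hC using fun i => CStarAlgebra.nonneg_iff_eq_star_mul_self.mp
      (nonneg_iff_posSemidef.mpr (h i).1)
    have e : piKron A = (piKron C)ᴴ * piKron C := by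
      rw [piKron_conjTranspose, piKron_mul]; exact congrArg piKron (funext hC)
    rw [e]; exact posSemidef_conjTranspose_mul_self _
  · simp only [Matrix.trace, diag, piKron, of_apply]
    rw [← Fintype.prod_sum (fun i a => A i a a)]
    exact Finset.prod_eq_one fun i _ => (h i).2

lemma gadc_signState {g q : ℝ} (h0 : 0 ≤ q) (h1 : q ≤ 1) (b : Fin 2) :
    gadc g 0 (signState q b) =
      !![((1 - (1 - g) * q : ℝ) : ℂ), (Real.sqrt (1 - g) * (Real.sqrt (1 - q) * sgnAmp b q) : ℝ);
        (Real.sqrt (1 - g) * (Real.sqrt (1 - q) * sgnAmp b q) : ℝ), ((1 - g) * q : ℝ)] := by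
  have e0 : (Real.sqrt (1 - q) : ℂ) * (Real.sqrt (1 - q) : ℂ) = ((1 - q : ℝ) : ℂ) := by
    rw [← Complex.ofReal_mul, Real.mul_self_sqrt (sub_nonneg.mpr h1)]
  have e1 : (sgnAmp b q : ℂ) * (sgnAmp b q : ℂ) = (q : ℂ) := by
    rw [← Complex.ofReal_mul, sgnAmp_sq h0]
  ext i j
  fin_cases i <;> fin_cases j <;>
    simp [gadc, signState, signVec, vecMulVec_apply, e0, e1] <;> (push_cast; ring_nf) <;> simp

lemma gadc_signState_isState {g q : ℝ} (hg0 : 0 ≤ g) (hg1 : g ≤ 1) (h0 : 0 ≤ q) (h1 : q ≤ 1)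
    (b : Fin 2) : IsState (gadc g 0 (signState q b)) := by
  rw [gadc_signState h0 h1]
  constructor
  · set v : Fin 2 → ℂ := ![(Real.sqrt (1 - q) : ℂ), ((Real.sqrt (1 - g) * sgnAmp b q : ℝ) : ℂ)]
      with hv
    set w : Fin 2 → ℂ := ![((Real.sqrt g * sgnAmp b q : ℝ) : ℂ), 0] with hw
    have h := (posSemidef_vecMulVec_self_star v).add (posSemidef_vecMulVec_self_star w)
    convert h using 1
    have e0 : (Real.sqrt (1 - q) : ℂ) * (Real.sqrt (1 - q) : ℂ) = ((1 - q : ℝ) : ℂ) := by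
      rw [← Complex.ofReal_mul, Real.mul_self_sqrt (sub_nonneg.mpr h1)]
    have e1 : (sgnAmp b q : ℂ) * (sgnAmp b q : ℂ) = (q : ℂ) := by
      rw [← Complex.ofReal_mul, sgnAmp_sq h0]
    have e2 : (Real.sqrt g : ℂ) * (Real.sqrt g : ℂ) = (g : ℂ) := by
      rw [← Complex.ofReal_mul, Real.mul_self_sqrt hg0]
    have e3 : (Real.sqrt (1 - g) : ℂ) * (Real.sqrt (1 - g) : ℂ) = ((1 - g : ℝ) : ℂ) := by
      rw [← Complex.ofReal_mul, Real.mul_self_sqrt (sub_nonneg.mpr hg1)]
    push_cast at e0 e1 e2 e3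
    ext i j
    simp only [Matrix.add_apply, vecMulVec_apply, Pi.star_apply]
    fin_cases i <;> fin_cases j <;> simp [hv, hw]
    · linear_combination -e0 - (sgnAmp b q : ℂ) * (sgnAmp b q : ℂ) * e2 - (g : ℂ) * e1
    · ring
    · ring
    · linear_combination -(sgnAmp b q : ℂ) * (sgnAmp b q : ℂ) * e3 - (1 - (g : ℂ)) * e1
  · simp [Matrix.trace_fin_two]

lemma gadc_signState_entropy {g q : ℝ} (hg0 : 0 ≤ g) (hg1 : g ≤ 1) (h0 : 0 ≤ q) (h1 : q ≤ 1)
    (b : Fin 2) : vN (gadc g 0 (signState q b))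
      = binEntropy ((1 - Real.sqrt (1 - 4 * g * (1 - g) * q ^ 2)) / 2) := by
  rw [vN_two (gadc_signState_isState hg0 hg1 h0 h1 b), gadc_signState h0 h1, det_fin_two]
  simp only [of_apply, cons_val', cons_val_zero, cons_val_one, empty_val', cons_val_fin_one,
    ← Complex.ofReal_mul, ← Complex.ofReal_sub, Complex.ofReal_re]
  congr 4
  have e0 := Real.mul_self_sqrt (sub_nonneg.mpr h1)
  have e1 := sgnAmp_sq h0 b
  have e2 := Real.mul_self_sqrt (sub_nonneg.mpr hg1)
  linear_combination 4 * (sgnAmp b q * sgnAmp b q) * (Real.sqrt (1 - g) * Real.sqrt (1 - g)) * e0 + 4 * (1 - q) * (Real.sqrt (1 - g) * Real.sqrt (1 - g)) * e1 + 4 * (1 - q) * q * e2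

theorem achieve {g q : ℝ} (hg0 : 0 ≤ g) (hg1 : g ≤ 1) (h0 : 0 ≤ q) (h1 : q ≤ 1) (n : ℕ) :
    (n : ℝ) * (binEntropy ((1 - g) * q)
      - binEntropy ((1 - Real.sqrt (1 - 4 * g * (1 - g) * q ^ 2)) / 2)) / Real.log 2
      ∈ holevoValues (gadc g 0) n := by
  set σ : Fin (2 ^ n) ≃ Bits n := finFunctionFinEquiv.symm with hσ
  refine ⟨2 ^ n, fun _ => ((2 : ℝ) ^ n)⁻¹, fun a => piKron fun i => signState q (σ a i),
    fun _ => by positivity, by simp, fun a => piKron_isState fun i => signState_isState h0 h1 _, ?_⟩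
  have hout : ∀ a, tensorPow (gadc g 0) n (piKron fun i => signState q (σ a i))
      = piKron fun i => gadc g 0 (signState q (σ a i)) := fun a => tensorPow_piKron g 0 _
  have hS : ∀ a, entropyBits (tensorPow (gadc g 0) n (piKron fun i => signState q (σ a i)))
      = n * binEntropy ((1 - Real.sqrt (1 - 4 * g * (1 - g) * q ^ 2)) / 2) / Real.log 2 := by
    intro a
    rw [entropyBits, hout, vN_piKron fun i => gadc_signState_isState hg0 hg1 h0 h1 _]
    simp [gadc_signState_entropy hg0 hg1 h0 h1]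
  set avg : Fin 2 → ℝ := ![1 - (1 - g) * q, (1 - g) * q] with havg
  have hsite : ∀ c d : Fin 2, ∑ b, gadc g 0 (signState q b) c d
      = 2 * (diagonal fun c => (avg c : ℂ)) c d := by
    intro c d
    simp only [Fin.sum_univ_two, gadc_signState h0 h1]
    fin_cases c <;> fin_cases d <;> simp [havg, sgnAmp] <;> ring
  have hw : ∑ a, ((((2 : ℝ) ^ n)⁻¹ : ℝ) : ℂ) •
      tensorPow (gadc g 0) n (piKron fun i => signState q (σ a i))
      = piKron fun _ : Fin n => diagonal fun c => (avg c : ℂ) := by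
    ext x y
    simp only [hout]
    simp only [Matrix.sum_apply, Matrix.smul_apply, piKron, of_apply, smul_eq_mul,
      ← Finset.mul_sum]
    rw [σ.sum_comp (fun τ : Bits n => ∏ i, gadc g 0 (signState q (τ i)) (x i) (y i)),
      ← Fintype.prod_sum (fun i b => gadc g 0 (signState q b) (x i) (y i))]
    simp only [hsite, Finset.prod_mul_distrib, Finset.prod_const, Finset.card_univ,
      Fintype.card_fin]
    push_cast
    rw [← mul_assoc, inv_mul_cancel₀ (pow_ne_zero n two_ne_zero), one_mul]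
  have havgS : IsState (diagonal fun c => (avg c : ℂ)) := by
    constructor
    · refine PosSemidef.diagonal fun c => ?_
      show (0 : ℂ) ≤ (avg c : ℂ)
      rw [Complex.zero_le_real, havg]
      fin_cases c <;> simp <;> nlinarith
    · simp [Matrix.trace, Fin.sum_univ_two, havg]
  rw [entropyBits, hw, vN_piKron fun _ => havgS]
  simp only [hS, vN_diagonal, Fin.sum_univ_two, havg, cons_val_zero, cons_val_one,
    binEntropy_eq_negMulLog_add_negMulLog_one_sub, Finset.sum_const, Finset.card_univ,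
    Fintype.card_fin, nsmul_eq_mul]
  push_cast
  field_simp
  ring

end Vale.Agent.P358
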