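import Vale.Agent.P358.Mixed

/-!
# The Holevo quantity of a block input is at most the sum over the sites
-/

namespace Vale.Agent.P358

open Matrix Finset
open scoped ComplexOrder

namespace Ind

/-- Population of the excited level of site `i`. -/
noncomputable def pop {n : ℕ} (i : Fin n) (ρ : Matrix (Cfg n) (Cfg n) ℂ) : ℝ :=
  ∑ x, if x i = 1 then (ρ x x).re else 0

/-- The entropy functional is concave, stated for decompositions of a state. -/
def Superadd (S : ∀ (ι : Type) [Fintype ι] [DecidableEq ι], Matrix ι ι ℂ → ℝ) : Prop :=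
  ∀ (n : ℕ) (M : Cfg n → Matrix (Cfg n) (Cfg n) ℂ), (∀ k, (M k).PosSemidef) →
    (∑ k, M k).trace.re = 1 →
    ∑ k, (S (Cfg n) (M k) - Real.negMulLog (M k).trace.re) ≤
      S (Cfg n) (∑ k, M k) - Real.negMulLog (∑ k, M k).trace.re

theorem trace_eq_sum_re {n : ℕ} (ρ : Matrix (Cfg n) (Cfg n) ℂ) :
    ρ.trace.re = ∑ x, (ρ x x).re := by
  simp [Matrix.trace]

theorem chanN_posSemidef (g : ℝ) {n : ℕ} {ρ : Matrix (Cfg n) (Cfg n) ℂ} (hρ : ρ.PosSemidef) :
    (chanN g n ρ).PosSemidef :=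
  posSemidef_sum _ fun _ _ => hρ.mul_mul_conjTranspose_same _

theorem trace_chanN {g : ℝ} (hg0 : 0 ≤ g) (hg1 : g ≤ 1) {n : ℕ}
    {ρ : Matrix (Cfg n) (Cfg n) ℂ} (hρ : ρ.PosSemidef) :
    (chanN g n ρ).trace.re = ρ.trace.re := by
  obtain ⟨ψ, rfl⟩ := exists_vectors hρ
  rw [chanN_gram, trace_sum, Complex.re_sum, trace_eq_sum_re]
  simp only [trace_mul_conjTranspose, frob_outN hg0 hg1]
  exact diag_sum_mass ψ

theorem pop_chanN {g : ℝ} (hg0 : 0 ≤ g) (hg1 : g ≤ 1) {n : ℕ} (i : Fin n)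
    {ρ : Matrix (Cfg n) (Cfg n) ℂ} (hρ : ρ.PosSemidef) :
    pop i (chanN g n ρ) = (1 - g) * pop i ρ := by
  obtain ⟨ψ, rfl⟩ := exists_vectors hρ
  have hr : pop i (gram ψ) = ∑ k, occ i (ψ k) := (diag_sum_occ ψ i).symm
  rw [hr, mul_sum]
  simp only [← rowOcc_outN hg0 hg1]
  rw [chanN_gram, sum_comm]
  refine sum_congr rfl fun x _ => ?_
  simp only [Matrix.sum_apply, Complex.re_sum, Matrix.mul_apply, conjTranspose_apply]
  split
  · refine sum_congr rfl fun k _ => sum_congr rfl fun s _ => ?_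
    rw [RCLike.star_def, Complex.mul_conj, Complex.ofReal_re]
  · simp

/-- A state: the output entropy is at least a sum over the sites of mixtures of `f`. -/
theorem state_bound (S : ∀ (ι : Type) [Fintype ι] [DecidableEq ι], Matrix ι ι ℂ → ℝ)
    (f : ℝ → ℝ) {g : ℝ} (hg0 : 0 ≤ g) (hg1 : g ≤ 1) (hL : OneStep S f g)
    (hone : ∀ N : Matrix (Cfg 0) (Cfg 0) ℂ, S (Cfg 0) (N * Nᴴ) = Real.negMulLog (frob N))
    (hre : ∀ (n : ℕ) (M : Matrix (Cfg (n + 1)) (Cfg (n + 1)) ℂ),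
      S (Cfg n ⊕ Cfg n) (M.submatrix (splitFirst n) (splitFirst n)) = S (Cfg (n + 1)) M)
    (hconc : Superadd S) {n : ℕ} {ρ : Matrix (Cfg n) (Cfg n) ℂ} (hρ : ρ.PosSemidef)
    (htr : ρ.trace.re = 1) :
    ∃ v : Fin n → ℝ, (∀ i, Mix f 1 (pop i ρ) (v i)) ∧ ∑ i, v i ≤ S (Cfg n) (chanN g n ρ) := by
  obtain ⟨ψ, rfl⟩ := exists_vectors hρ
  obtain ⟨v, hv, hle⟩ := family_bound S f hg0 hg1 hL hone hre n ψ
  have hm : ∑ k, mass (ψ k) = 1 := by rw [diag_sum_mass, ← htr, trace_eq_sum_re]; rfl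
  refine ⟨v, fun i => ?_, hle.trans ?_⟩
  · have := hv i
    rwa [hm, diag_sum_occ] at this
  · have h := hconc n (fun k => outN g n (ψ k) * (outN g n (ψ k))ᴴ)
      (fun k => posSemidef_self_mul_conjTranspose _)
      (by simp [trace_sum, trace_mul_conjTranspose, frob_outN hg0 hg1, hm])
    simp only [trace_mul_conjTranspose, frob_outN hg0 hg1, trace_sum, Complex.re_sum, hm,
      Real.negMulLog_one, sub_zero] at h
    rwa [chanN_gram]

/-- The Holevo quantity of every ensemble on `n` sites is at most `n` times any bound valid for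
all single-site mixtures. -/
theorem holevo_le (S : ∀ (ι : Type) [Fintype ι] [DecidableEq ι], Matrix ι ι ℂ → ℝ)
    (f h : ℝ → ℝ) {g C : ℝ} (hg0 : 0 ≤ g) (hg1 : g ≤ 1) (hL : OneStep S f g)
    (hone : ∀ N : Matrix (Cfg 0) (Cfg 0) ℂ, S (Cfg 0) (N * Nᴴ) = Real.negMulLog (frob N))
    (hre : ∀ (n : ℕ) (M : Matrix (Cfg (n + 1)) (Cfg (n + 1)) ℂ),
      S (Cfg n ⊕ Cfg n) (M.submatrix (splitFirst n) (splitFirst n)) = S (Cfg (n + 1)) M)
    (hconc : Superadd S)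
    (hsub : ∀ (n : ℕ) (σ : Matrix (Cfg n) (Cfg n) ℂ), σ.PosSemidef → σ.trace.re = 1 →
      S (Cfg n) σ ≤ ∑ i, h (pop i σ))
    (hC : ∀ q v, Mix f 1 q v → h ((1 - g) * q) - v ≤ C)
    {n : ℕ} {α : Type*} [Fintype α] (p : α → ℝ) (ρ : α → Matrix (Cfg n) (Cfg n) ℂ)
    (hp : ∀ a, 0 ≤ p a) (hp1 : ∑ a, p a = 1) (hρ : ∀ a, (ρ a).PosSemidef)
    (htr : ∀ a, (ρ a).trace.re = 1) :
    S (Cfg n) (chanN g n (∑ a, (p a : ℂ) • ρ a)) - ∑ a, p a * S (Cfg n) (chanN g n (ρ a)) ≤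
      n * C := by
  choose v hv hle using fun a =>
    state_bound S f hg0 hg1 hL hone hre hconc (hρ a) (htr a)
  have havg : (∑ a, (p a : ℂ) • ρ a).PosSemidef :=
    posSemidef_sum _ fun a _ => (hρ a).smul (by exact_mod_cast hp a)
  have havgtr : (∑ a, (p a : ℂ) • ρ a).trace.re = 1 := by
    simp [trace_sum, trace_smul, htr, hp1]
  have hpop : ∀ i : Fin n, pop i (∑ a, (p a : ℂ) • ρ a) = ∑ a, p a * pop i (ρ a) := fun i => by
    simp only [pop, mul_sum]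
    rw [sum_comm]
    refine sum_congr rfl fun x _ => ?_
    split <;> simp [Matrix.sum_apply]
  have hmix : ∀ i : Fin n, Mix f 1 (pop i (∑ a, (p a : ℂ) • ρ a)) (∑ a, p a * v a i) := fun i => by
    rw [hpop]
    have := Mix.sum univ fun a _ => (hv a i).scale (hp a)
    simpa [hp1] using this
  have h1 := hsub n _ (chanN_posSemidef g havg)
    (by rw [trace_chanN hg0 hg1 havg, havgtr])
  simp only [pop_chanN hg0 hg1 _ havg] at h1
  have h2 : ∑ a, p a * ∑ i, v a i ≤ ∑ a, p a * S (Cfg n) (chanN g n (ρ a)) :=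
    sum_le_sum fun a _ => mul_le_mul_of_nonneg_left (hle a) (hp a)
  have h3 : ∑ i : Fin n, (h ((1 - g) * pop i (∑ a, (p a : ℂ) • ρ a)) - ∑ a, p a * v a i) ≤
      ∑ _i : Fin n, C := sum_le_sum fun i _ => hC _ _ (hmix i)
  simp only [sum_sub_distrib, sum_const, card_univ, Fintype.card_fin, nsmul_eq_mul] at h3
  rw [sum_comm] at h3
  simp only [← mul_sum] at h3
  linarith

end Ind

end Vale.Agent.P358
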