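import Vale.Agent.P358.Mix
import Mathlib.LinearAlgebra.Matrix.Trace
import Mathlib.LinearAlgebra.Matrix.ConjTranspose
import Mathlib.Data.Matrix.Block
import Mathlib.Analysis.SpecialFunctions.Pow.Real
import Mathlib.Analysis.Complex.Basic

/-!
# Induction on the number of sites for the amplitude-damping channel
-/

namespace Vale.Agent.P358

open Matrix Finset

namespace Ind

/-- Configurations of `n` qubits. -/
abbrev Cfg (n : ℕ) := Fin n → Fin 2

/-- The Kraus coefficients of amplitude damping of strength `g`: `kr g s x y`. -/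
noncomputable def kr (g : ℝ) (s x y : Fin 2) : ℂ :=
  if s = 0 then (if x = y then (if x = 0 then 1 else (Real.sqrt (1 - g) : ℂ)) else 0)
  else (if x = 0 ∧ y = 1 then (Real.sqrt g : ℂ) else 0)

/-- The matrix whose column `s` is the image of `ψ` under the product Kraus operator `s`. -/
noncomputable def outN (g : ℝ) (n : ℕ) (ψ : Cfg n → ℂ) : Matrix (Cfg n) (Cfg n) ℂ :=
  fun x s => ∑ y, (∏ i, kr g (s i) (x i) (y i)) * ψ y

/-- Squared norm. -/
noncomputable def mass {n : ℕ} (ψ : Cfg n → ℂ) : ℝ := ∑ y, Complex.normSq (ψ y)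

/-- Weight of the excited level at site `i`. -/
noncomputable def occ {n : ℕ} (i : Fin n) (ψ : Cfg n → ℂ) : ℝ :=
  ∑ y, if y i = 1 then Complex.normSq (ψ y) else 0

/-- The part of `ψ` whose first site is `b`. -/
def head {n : ℕ} (ψ : Cfg (n + 1) → ℂ) (b : Fin 2) : Cfg n → ℂ := fun y => ψ (Fin.cons b y)

/-- Splitting off the first site. -/
def splitFirst (n : ℕ) : Cfg n ⊕ Cfg n ≃ Cfg (n + 1) where
  toFun := Sum.elim (fun y => Fin.cons 0 y) (fun y => Fin.cons 1 y)
  invFun y := if y 0 = 0 then .inl (Fin.tail y) else .inr (Fin.tail y)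
  left_inv z := by rcases z with z | z <;> simp
  right_inv y := by
    by_cases h : y 0 = 0
    · simp only [h, if_true, Sum.elim_inl]
      rw [← h, Fin.cons_self_tail]
    · have h1 : y 0 = 1 := by omega
      simp only [h, if_false, Sum.elim_inr]
      rw [← h1, Fin.cons_self_tail]

theorem sum_split {n : ℕ} {M : Type*} [AddCommMonoid M] (F : Cfg (n + 1) → M) :
    ∑ y, F y = (∑ y, F (Fin.cons 0 y)) + ∑ y, F (Fin.cons 1 y) := by
  rw [← (splitFirst n).sum_comp F, Fintype.sum_sum_type]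
  rfl

theorem mass_succ {n : ℕ} (ψ : Cfg (n + 1) → ℂ) :
    mass ψ = mass (head ψ 0) + mass (head ψ 1) :=
  sum_split _

theorem occ_zero {n : ℕ} (ψ : Cfg (n + 1) → ℂ) : occ 0 ψ = mass (head ψ 1) := by
  rw [occ, sum_split]
  simp [mass, head]

theorem occ_succ {n : ℕ} (i : Fin n) (ψ : Cfg (n + 1) → ℂ) :
    occ i.succ ψ = occ i (head ψ 0) + occ i (head ψ 1) := by
  rw [occ, sum_split]
  simp [occ, head]

theorem mass_nonneg {n : ℕ} (ψ : Cfg n → ℂ) : 0 ≤ mass ψ :=
  sum_nonneg fun _ _ => Complex.normSq_nonneg _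

theorem outN_cons (g : ℝ) {n : ℕ} (ψ : Cfg (n + 1) → ℂ) (a t : Fin 2) (x s : Cfg n) :
    outN g (n + 1) ψ (Fin.cons a x) (Fin.cons t s) =
      kr g t a 0 * outN g n (head ψ 0) x s + kr g t a 1 * outN g n (head ψ 1) x s := by
  simp only [outN, mul_sum]
  rw [sum_split]
  simp [Fin.prod_univ_succ, head, mul_assoc]

theorem outN_succ (g : ℝ) {n : ℕ} (ψ : Cfg (n + 1) → ℂ) :
    (outN g (n + 1) ψ).submatrix (splitFirst n) (splitFirst n) =
      fromBlocks (outN g n (head ψ 0)) ((Real.sqrt g : ℂ) • outN g n (head ψ 1))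
        ((Real.sqrt (1 - g) : ℂ) • outN g n (head ψ 1)) 0 := by
  ext (x | x) (s | s) <;> simp [splitFirst, outN_cons, kr]

/-- Squared Frobenius norm. -/
noncomputable def frob {ι : Type*} [Fintype ι] (N : Matrix ι ι ℂ) : ℝ :=
  ∑ x, ∑ s, Complex.normSq (N x s)

theorem trace_mul_conjTranspose {ι : Type*} [Fintype ι] (N : Matrix ι ι ℂ) :
    (N * Nᴴ).trace.re = frob N := by
  simp [Matrix.trace, Matrix.mul_apply, frob, Complex.normSq_apply]

theorem frob_smul {ι : Type*} [Fintype ι] (c : ℂ) (N : Matrix ι ι ℂ) :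
    frob (c • N) = Complex.normSq c * frob N := by
  simp [frob, mul_sum, Complex.normSq_mul]

theorem frob_outN {g : ℝ} (hg0 : 0 ≤ g) (hg1 : g ≤ 1) :
    ∀ (n : ℕ) (ψ : Cfg n → ℂ), frob (outN g n ψ) = mass ψ
  | 0, ψ => by simp [frob, outN, mass]
  | n + 1, ψ => by
    have h : frob (outN g (n + 1) ψ) =
        frob ((outN g (n + 1) ψ).submatrix (splitFirst n) (splitFirst n)) := by
      simp only [frob, submatrix_apply]
      rw [← (splitFirst n).sum_comp fun x => ∑ s, Complex.normSq (outN g (n + 1) ψ x s)]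
      exact sum_congr rfl fun x _ => ((splitFirst n).sum_comp _).symm
    rw [h, outN_succ, mass_succ, ← frob_outN hg0 hg1 n (head ψ 0),
      ← frob_outN hg0 hg1 n (head ψ 1)]
    simp only [frob, Fintype.sum_sum_type, fromBlocks_apply₁₁, fromBlocks_apply₁₂,
      fromBlocks_apply₂₁, fromBlocks_apply₂₂, Matrix.smul_apply, smul_eq_mul, Complex.normSq_mul,
      Complex.normSq_ofReal, Matrix.zero_apply, map_zero, sum_const_zero, add_zero,
      sum_add_distrib, ← mul_sum, Real.mul_self_sqrt hg0,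
      Real.mul_self_sqrt (sub_nonneg.mpr hg1)]
    ring

/-- The one-step bound in homogeneous form, for an entropy functional `S` and an output-entropy
function `f`. -/
def OneStep (S : ∀ (ι : Type) [Fintype ι] [DecidableEq ι], Matrix ι ι ℂ → ℝ) (f : ℝ → ℝ)
    (g : ℝ) : Prop :=
  ∀ (n : ℕ) (P Q : Matrix (Cfg n) (Cfg n) ℂ) (N : Matrix (Cfg n ⊕ Cfg n) (Cfg n ⊕ Cfg n) ℂ),
    N = fromBlocks P ((Real.sqrt g : ℂ) • Q) ((Real.sqrt (1 - g) : ℂ) • Q) 0 →
    (frob P + frob Q) * f (frob Q / (frob P + frob Q)) +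
        (S (Cfg n) (P * Pᴴ) - Real.negMulLog (frob P)) +
        (S (Cfg n) (Q * Qᴴ) - Real.negMulLog (frob Q)) + Real.negMulLog (frob P + frob Q) ≤
      S (Cfg n ⊕ Cfg n) (N * Nᴴ)

/-- The output entropy of a pure input is at least a sum over the sites of mixtures of `f`. -/
theorem pure_bound (S : ∀ (ι : Type) [Fintype ι] [DecidableEq ι], Matrix ι ι ℂ → ℝ) (f : ℝ → ℝ)
    {g : ℝ} (hg0 : 0 ≤ g) (hg1 : g ≤ 1) (hL : OneStep S f g)
    (hone : ∀ N : Matrix (Cfg 0) (Cfg 0) ℂ, S (Cfg 0) (N * Nᴴ) = Real.negMulLog (frob N))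
    (hre : ∀ (n : ℕ) (M : Matrix (Cfg (n + 1)) (Cfg (n + 1)) ℂ),
      S (Cfg n ⊕ Cfg n) (M.submatrix (splitFirst n) (splitFirst n)) = S (Cfg (n + 1)) M) :
    ∀ (n : ℕ) (ψ : Cfg n → ℂ), ∃ v : Fin n → ℝ, (∀ i, Mix f (mass ψ) (occ i ψ) (v i)) ∧
      Real.negMulLog (mass ψ) + ∑ i, v i ≤ S (Cfg n) (outN g n ψ * (outN g n ψ)ᴴ)
  | 0, ψ => ⟨fun _ => 0, fun i => i.elim0, by
      rw [hone, frob_outN hg0 hg1]
      simp⟩
  | n + 1, ψ => by
    obtain ⟨v₀, hv₀, h₀⟩ := pure_bound S f hg0 hg1 hL hone hre n (head ψ 0)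
    obtain ⟨v₁, hv₁, h₁⟩ := pure_bound S f hg0 hg1 hL hone hre n (head ψ 1)
    refine ⟨Fin.cons (mass ψ * f (mass (head ψ 1) / mass ψ)) (fun i => v₀ i + v₁ i), ?_, ?_⟩
    · refine Fin.cases ?_ (fun i => ?_)
      · rw [Fin.cons_zero, occ_zero]
        exact Mix.point f (mass_nonneg _) (by
          rw [mass_succ]; linarith [mass_nonneg (head ψ 0)])
      · rw [Fin.cons_succ, occ_succ, mass_succ]
        exact (hv₀ i).add (hv₁ i)
    · have hstep := hL n (outN g n (head ψ 0)) (outN g n (head ψ 1)) _ (outN_succ g ψ)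
      rw [conjTranspose_submatrix, submatrix_mul_equiv, hre, frob_outN hg0 hg1,
        frob_outN hg0 hg1, ← mass_succ] at hstep
      rw [Fin.sum_univ_succ, Fin.cons_zero]
      simp only [Fin.cons_succ, sum_add_distrib]
      linarith

/-- The output population of the excited level at site `i` is `1 - g` times the input one. -/
theorem rowOcc_outN {g : ℝ} (hg0 : 0 ≤ g) (hg1 : g ≤ 1) :
    ∀ (n : ℕ) (i : Fin n) (ψ : Cfg n → ℂ),
      (∑ x, if x i = 1 then ∑ s, Complex.normSq (outN g n ψ x s) else 0) = (1 - g) * occ i ψ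
  | 0, i, _ => i.elim0
  | n + 1, i, ψ => by
    have key : ∀ a t : Fin 2, ∀ x s : Cfg n,
        Complex.normSq (outN g (n + 1) ψ (Fin.cons a x) (Fin.cons t s)) =
          if a = 0 then (if t = 0 then Complex.normSq (outN g n (head ψ 0) x s)
            else g * Complex.normSq (outN g n (head ψ 1) x s))
          else (if t = 0 then (1 - g) * Complex.normSq (outN g n (head ψ 1) x s) else 0) := by
      intro a t x s
      rw [outN_cons]
      fin_cases a <;> fin_cases t <;>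
        simp [kr, Real.mul_self_sqrt hg0, Real.mul_self_sqrt (sub_nonneg.mpr hg1)]
    have m1 : ∀ b : Fin 2, ∑ x, ∑ s, Complex.normSq (outN g n (head ψ b) x s) =
        mass (head ψ b) := fun b => frob_outN hg0 hg1 n (head ψ b)
    refine Fin.cases ?_ (fun j => ?_) i
    · rw [sum_split, occ_zero, ← m1 1]
      simp only [Fin.cons_zero, if_true, sum_split (n := n) (fun s => Complex.normSq _), key]
      simp [mul_sum]
    · have h0 := rowOcc_outN hg0 hg1 n j (head ψ 0)
      have h1 := rowOcc_outN hg0 hg1 n j (head ψ 1)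
      rw [sum_split, occ_succ]
      simp only [Fin.cons_succ, sum_split (n := n) (fun s => Complex.normSq _), key]
      simp only [if_true, one_ne_zero, if_false, sum_const_zero, ← mul_sum,
        ite_add_zero, sum_add_distrib, ← mul_ite_zero, ite_self]
      rw [h0, h1]
      ring

/-- A finite family of vectors: the entropies beyond those of the weights dominate mixtures of
`f` whose moments are the total weights. -/
theorem family_bound (S : ∀ (ι : Type) [Fintype ι] [DecidableEq ι], Matrix ι ι ℂ → ℝ)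
    (f : ℝ → ℝ) {g : ℝ} (hg0 : 0 ≤ g) (hg1 : g ≤ 1) (hL : OneStep S f g)
    (hone : ∀ N : Matrix (Cfg 0) (Cfg 0) ℂ, S (Cfg 0) (N * Nᴴ) = Real.negMulLog (frob N))
    (hre : ∀ (n : ℕ) (M : Matrix (Cfg (n + 1)) (Cfg (n + 1)) ℂ),
      S (Cfg n ⊕ Cfg n) (M.submatrix (splitFirst n) (splitFirst n)) = S (Cfg (n + 1)) M)
    {κ : Type*} [Fintype κ] (n : ℕ) (ψ : κ → Cfg n → ℂ) :
    ∃ v : Fin n → ℝ, (∀ i, Mix f (∑ k, mass (ψ k)) (∑ k, occ i (ψ k)) (v i)) ∧
      ∑ i, v i ≤ ∑ k, (S (Cfg n) (outN g n (ψ k) * (outN g n (ψ k))ᴴ) -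
        Real.negMulLog (mass (ψ k))) := by
  choose v hv hS using fun k => pure_bound S f hg0 hg1 hL hone hre n (ψ k)
  refine ⟨fun i => ∑ k, v k i, fun i => Mix.sum univ fun k _ => hv k i, ?_⟩
  rw [sum_comm]
  exact sum_le_sum fun k _ => by linarith [hS k]

end Ind

end Vale.Agent.P358
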