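import Vale.Agent.P358.Basic
import Vale.Agent.P358.Induction

/-!
P358: algebra of tensor powers of the amplitude-damping channel.
-/

namespace Vale.Agent.P358

open Matrix
open scoped ComplexOrder

variable {N : Matrix (Fin 2) (Fin 2) ℂ → Matrix (Fin 2) (Fin 2) ℂ} {n : ℕ}

lemma tensorPow_add (X Y : Matrix (Bits n) (Bits n) ℂ) :
    tensorPow N n (X + Y) = tensorPow N n X + tensorPow N n Y := by
  ext x y
  simp [tensorPow, mul_add, Finset.sum_add_distrib]

lemma tensorPow_smul (c : ℂ) (X : Matrix (Bits n) (Bits n) ℂ) :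
    tensorPow N n (c • X) = c • tensorPow N n X := by
  ext x y
  simp only [tensorPow, Matrix.smul_apply, of_apply, smul_eq_mul, Finset.mul_sum]
  refine Finset.sum_congr rfl fun a _ => Finset.sum_congr rfl fun b _ => ?_
  ring

lemma tensorPow_zero' : tensorPow N n 0 = 0 := by
  ext x y; simp [tensorPow]

lemma tensorPow_sum {κ : Type*} (s : Finset κ) (X : κ → Matrix (Bits n) (Bits n) ℂ) :
    tensorPow N n (∑ k ∈ s, X k) = ∑ k ∈ s, tensorPow N n (X k) := by
  classical
  induction s using Finset.induction_on with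
  | empty => simp [tensorPow_zero']
  | @insert k s hk ih => rw [Finset.sum_insert hk, Finset.sum_insert hk, tensorPow_add, ih]

lemma gadc_single {g : ℝ} (hg0 : 0 ≤ g) (hg1 : g ≤ 1) (a b x y : Fin 2) :
    gadc g 0 (Matrix.single a b (1 : ℂ)) x y = ∑ s, Ind.kr g s x a * star (Ind.kr g s y b) := by
  fin_cases a <;> fin_cases b <;> fin_cases x <;> fin_cases y <;>
    simp [gadc, Ind.kr, Matrix.single, Fin.sum_univ_two, ← Complex.ofReal_mul,
      Real.mul_self_sqrt hg0, Real.mul_self_sqrt (sub_nonneg.mpr hg1)]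

lemma gadc_expand (g ν : ℝ) (X : Matrix (Fin 2) (Fin 2) ℂ) (x y : Fin 2) :
    gadc g ν X x y = ∑ a, ∑ b, gadc g ν (Matrix.single a b (1 : ℂ)) x y * X a b := by
  fin_cases x <;> fin_cases y <;> simp [gadc, Matrix.single, Fin.sum_univ_two] <;> ring

/-- A pure input is sent to a Gram matrix of Kraus images. -/
theorem tensorPow_pure {g : ℝ} (hg0 : 0 ≤ g) (hg1 : g ≤ 1) (ψ : Bits n → ℂ) :
    tensorPow (gadc g 0) n (vecMulVec ψ (star ψ))
      = Ind.outN g n ψ * (Ind.outN g n ψ)ᴴ := by
  ext x y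
  simp only [tensorPow, of_apply, gadc_single hg0 hg1, Fintype.prod_sum, mul_apply, conjTranspose_apply,
    Ind.outN, vecMulVec_apply, Pi.star_apply, star_sum, star_mul', star_prod, Finset.sum_mul,
    Finset.mul_sum]
  conv_lhs => rw [Finset.sum_comm]; arg 2; ext b; rw [Finset.sum_comm]
  conv_lhs => rw [Finset.sum_comm]
  refine Finset.sum_congr rfl fun s _ => Finset.sum_congr rfl fun a _ =>
    Finset.sum_congr rfl fun b _ => ?_
  rw [Finset.prod_mul_distrib]
  ring

/-- Tensor powers of the channel act factorwise on product matrices. -/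
theorem tensorPow_piKron (g ν : ℝ) (A : Fin n → Matrix (Fin 2) (Fin 2) ℂ) :
    tensorPow (gadc g ν) n (piKron A) = piKron fun i => gadc g ν (A i) := by
  ext x y
  simp only [tensorPow, piKron, of_apply, ← Finset.prod_mul_distrib]
  conv_rhs => arg 2; ext i; rw [gadc_expand]
  rw [Fintype.prod_sum]
  refine Finset.sum_congr rfl fun a _ => ?_
  rw [Fintype.prod_sum]

end Vale.Agent.P358
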