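import Mathlib.Data.List.OfFn
import Mathlib.Algebra.BigOperators.Fin
import Mathlib.Algebra.Order.BigOperators.Group.List
import Mathlib.Analysis.SpecialFunctions.Log.NegMulLog

/-!
# Weighted families of values of a real function
-/

namespace Vale.Agent.P358

/-- `Mix f m s v`: some finite family of weights `w ≥ 0` and points `q ∈ [0,1]` has total weight
`m`, first moment `s` and `∑ w * f q ≤ v`. -/
def Mix (f : ℝ → ℝ) (m s v : ℝ) : Prop :=
  ∃ l : List (ℝ × ℝ), (∀ p ∈ l, 0 ≤ p.1 ∧ 0 ≤ p.2 ∧ p.2 ≤ 1) ∧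
    (l.map fun p => p.1).sum = m ∧ (l.map fun p => p.1 * p.2).sum = s ∧
    (l.map fun p => p.1 * f p.2).sum ≤ v

theorem Mix.zero (f : ℝ → ℝ) : Mix f 0 0 0 :=
  ⟨[], by simp, by simp, by simp, by simp⟩

theorem Mix.add {f : ℝ → ℝ} {m s v m' s' v' : ℝ} (h : Mix f m s v) (h' : Mix f m' s' v') :
    Mix f (m + m') (s + s') (v + v') := by
  obtain ⟨l, hl, hm, hs, hv⟩ := h
  obtain ⟨l', hl', hm', hs', hv'⟩ := h'
  refine ⟨l ++ l', fun p hp => (List.mem_append.mp hp).elim (hl p) (hl' p), ?_, ?_, ?_⟩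
  · simp [hm, hm']
  · simp [hs, hs']
  · simp only [List.map_append, List.sum_append]
    linarith

theorem Mix.mono {f : ℝ → ℝ} {m s v v' : ℝ} (h : Mix f m s v) (hv : v ≤ v') : Mix f m s v' := by
  obtain ⟨l, hl, hm, hs, hl'⟩ := h
  exact ⟨l, hl, hm, hs, hl'.trans hv⟩

/-- One point carrying the mass `m` at `b / m`. -/
theorem Mix.point (f : ℝ → ℝ) {m b : ℝ} (hb : 0 ≤ b) (hbm : b ≤ m) :
    Mix f m b (m * f (b / m)) := by
  refine ⟨[(m, b / m)], ?_, by simp, ?_, by simp⟩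
  · intro p hp
    obtain rfl := List.mem_singleton.mp hp
    exact ⟨hb.trans hbm, div_nonneg hb (hb.trans hbm), div_le_one_of_le₀ hbm (hb.trans hbm)⟩
  · rcases eq_or_ne m 0 with rfl | hm
    · simp [le_antisymm hbm hb]
    · simp [mul_div_cancel₀ b hm]

theorem Mix.sum {ι : Type*} {f : ℝ → ℝ} {m s v : ι → ℝ} (t : Finset ι)
    (h : ∀ a ∈ t, Mix f (m a) (s a) (v a)) :
    Mix f (∑ a ∈ t, m a) (∑ a ∈ t, s a) (∑ a ∈ t, v a) := by
  classical
  induction t using Finset.induction_on with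
  | empty => simpa using Mix.zero f
  | insert a t hat ih =>
    simp only [Finset.sum_insert hat]
    exact (h a (Finset.mem_insert_self a t)).add
      (ih fun b hb => h b (Finset.mem_insert_of_mem hb))

theorem Mix.scale {f : ℝ → ℝ} {m s v c : ℝ} (hc : 0 ≤ c) (h : Mix f m s v) :
    Mix f (c * m) (c * s) (c * v) := by
  obtain ⟨l, hl, hm, hs, hv⟩ := h
  refine ⟨l.map fun p => (c * p.1, p.2), ?_, ?_, ?_, ?_⟩
  · intro p hp
    obtain ⟨q, hq, rfl⟩ := List.mem_map.mp hp
    exact ⟨mul_nonneg hc (hl q hq).1, (hl q hq).2⟩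
  · rw [← hm, ← List.sum_map_mul_left, List.map_map]; rfl
  · rw [← hs, ← List.sum_map_mul_left, List.map_map]
    congr 1
    exact List.map_congr_left fun p _ => by simp [mul_assoc]
  · refine le_trans (le_of_eq ?_) (mul_le_mul_of_nonneg_left hv hc)
    rw [← List.sum_map_mul_left, List.map_map]
    congr 1
    exact List.map_congr_left fun p _ => by simp [mul_assoc]

end Vale.Agent.P358
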