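import Mathlib.Analysis.SpecialFunctions.Log.NegMulLog
import Mathlib.Analysis.MeanInequalities
import Mathlib.Analysis.SpecialFunctions.Complex.LogBounds
import Mathlib.MeasureTheory.Integral.IntegralEqImproper

/-!
# The scalar three-block function
-/

namespace Vale.Agent.P358

open Real MeasureTheory

/-- The pointwise integrand of the scalar problem. -/
noncomputable def lineTerm (t u v w : ℝ) : ℝ :=
  log (1 + u * t / ((t + v) * (t + w)))

/-- The integrand representing `negMulLog x + x`. -/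
noncomputable def etaInt (x t : ℝ) : ℝ :=
  log (1 + x / t) - x / (1 + t)

theorem lineTerm_mono {t u v w v' w' : ℝ} (ht : 0 < t) (hu : 0 ≤ u) (hv : 0 ≤ v) (hw : 0 ≤ w)
    (hvv : v ≤ v') (hww : w ≤ w') : lineTerm t u v' w' ≤ lineTerm t u v w := by
  unfold lineTerm
  have h1 : 0 < (t + v) * (t + w) := by positivity
  have hv' : 0 ≤ v' := hv.trans hvv
  have hw' : 0 ≤ w' := hw.trans hww
  have h2 : (t + v) * (t + w) ≤ (t + v') * (t + w') :=
    mul_le_mul (by linarith) (by linarith) (by linarith) (by linarith)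
  have h3 : u * t / ((t + v') * (t + w')) ≤ u * t / ((t + v) * (t + w)) :=
    div_le_div_of_nonneg_left (by positivity) h1 h2
  have h4 : 0 ≤ u * t / ((t + v') * (t + w')) := by positivity
  exact log_le_log (by linarith) (by linarith)

theorem log_one_add_geom_le {z₁ z₂ p q : ℝ} (h1 : 0 ≤ z₁) (h2 : 0 ≤ z₂) (hp : 0 ≤ p) (hq : 0 ≤ q)
    (hpq : p + q = 1) :
    log (1 + z₁ ^ p * z₂ ^ q) ≤ p * log (1 + z₁) + q * log (1 + z₂) := by
  have a1 : 0 < 1 + z₁ := by linarith
  have a2 : 0 < 1 + z₂ := by linarith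
  have e1 := geom_mean_le_arith_mean2_weighted hp hq (div_nonneg h1 a1.le) (div_nonneg h2 a2.le) hpq
  have e2 := geom_mean_le_arith_mean2_weighted hp hq (one_div_nonneg.mpr a1.le)
    (one_div_nonneg.mpr a2.le) hpq
  rw [div_rpow h1 a1.le, div_rpow h2 a2.le] at e1
  rw [div_rpow zero_le_one a1.le, div_rpow zero_le_one a2.le, one_rpow, one_rpow] at e2
  have hsum : p * (z₁ / (1 + z₁)) + q * (z₂ / (1 + z₂)) +
      (p * (1 / (1 + z₁)) + q * (1 / (1 + z₂))) = 1 := by
    field_simp
    linear_combination ((1 + z₁) * (1 + z₂)) * hpq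
  set A := (1 + z₁) ^ p with hA
  set B := (1 + z₂) ^ q with hB
  have hA0 : 0 < A := rpow_pos_of_pos a1 _
  have hB0 : 0 < B := rpow_pos_of_pos a2 _
  have key : 1 + z₁ ^ p * z₂ ^ q ≤ A * B := by
    have h := add_le_add e1 e2
    rw [hsum] at h
    have h' := mul_le_mul_of_nonneg_right h (mul_pos hA0 hB0).le
    rw [one_mul] at h'
    have : (z₁ ^ p / A * (z₂ ^ q / B) + 1 / A * (1 / B)) * (A * B) = z₁ ^ p * z₂ ^ q + 1 := by
      field_simp
    linarith
  have hpos : 0 < 1 + z₁ ^ p * z₂ ^ q := by positivity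
  calc log (1 + z₁ ^ p * z₂ ^ q) ≤ log (A * B) := log_le_log hpos key
    _ = p * log (1 + z₁) + q * log (1 + z₂) := by
      rw [log_mul hA0.ne' hB0.ne', hA, hB, log_rpow a1, log_rpow a2]

theorem lineTerm_convex {t u v₁ v₂ w₁ w₂ p q : ℝ} (ht : 0 < t) (hu : 0 ≤ u) (hv₁ : 0 ≤ v₁)
    (hv₂ : 0 ≤ v₂) (hw₁ : 0 ≤ w₁) (hw₂ : 0 ≤ w₂) (hp : 0 ≤ p) (hq : 0 ≤ q) (hpq : p + q = 1) :
    lineTerm t u (p * v₁ + q * v₂) (p * w₁ + q * w₂) ≤
      p * lineTerm t u v₁ w₁ + q * lineTerm t u v₂ w₂ := by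
  set c := u * t with hc
  have hc0 : 0 ≤ c := by positivity
  set X₁ := (t + v₁) * (t + w₁) with hX₁
  set X₂ := (t + v₂) * (t + w₂) with hX₂
  have x1 : 0 < X₁ := by positivity
  have x2 : 0 < X₂ := by positivity
  have hv := geom_mean_le_arith_mean2_weighted hp hq (show (0 : ℝ) ≤ t + v₁ by linarith)
    (show (0 : ℝ) ≤ t + v₂ by linarith) hpq
  have hw := geom_mean_le_arith_mean2_weighted hp hq (show (0 : ℝ) ≤ t + w₁ by linarith)
    (show (0 : ℝ) ≤ t + w₂ by linarith) hpq
  have ev : p * (t + v₁) + q * (t + v₂) = t + (p * v₁ + q * v₂) := by linear_combination t * hpq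
  have ew : p * (t + w₁) + q * (t + w₂) = t + (p * w₁ + q * w₂) := by linear_combination t * hpq
  rw [ev] at hv
  rw [ew] at hw
  have hG : X₁ ^ p * X₂ ^ q ≤ (t + (p * v₁ + q * v₂)) * (t + (p * w₁ + q * w₂)) := by
    rw [hX₁, hX₂, mul_rpow (by linarith) (by linarith), mul_rpow (by linarith) (by linarith)]
    calc _ = ((t + v₁) ^ p * (t + v₂) ^ q) * ((t + w₁) ^ p * (t + w₂) ^ q) := by ring
      _ ≤ _ := mul_le_mul hv hw (by positivity) (by positivity)
  have hGpos : 0 < X₁ ^ p * X₂ ^ q := mul_pos (rpow_pos_of_pos x1 _) (rpow_pos_of_pos x2 _)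
  have hle : c / ((t + (p * v₁ + q * v₂)) * (t + (p * w₁ + q * w₂))) ≤
      (c / X₁) ^ p * (c / X₂) ^ q := by
    rw [div_rpow hc0 x1.le, div_rpow hc0 x2.le, div_mul_div_comm,
      ← rpow_add' hc0 (by rw [hpq]; norm_num), hpq, rpow_one]
    exact div_le_div_of_nonneg_left hc0 hGpos hG
  have hl := log_one_add_geom_le (div_nonneg hc0 x1.le) (div_nonneg hc0 x2.le) hp hq hpq
  have hnn : 0 ≤ c / ((t + (p * v₁ + q * v₂)) * (t + (p * w₁ + q * w₂))) := by positivity
  refine le_trans ?_ hl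
  exact log_le_log (by linarith) (by linarith)

open Filter Topology

theorem etaPrim_first {x t : ℝ} (hx : 0 < x) (ht : 0 < t) :
    HasDerivAt (fun s => s * log (s + x) - s * log s) (log (1 + x / t) - x / (t + x)) t := by
  have h1 : HasDerivAt (fun s => s + x) 1 t := (hasDerivAt_id' t).add_const x
  have h4 := ((hasDerivAt_id' t).fun_mul (h1.log (by linarith))).fun_sub (Real.hasDerivAt_mul_log ht.ne')
  refine h4.congr_deriv ?_
  rw [show 1 + x / t = (t + x) / t by field_simp, log_div (by linarith) ht.ne']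
  field_simp
  ring

theorem etaPrim_second {x t : ℝ} (hx : 0 < x) (ht : 0 ≤ t) :
    HasDerivAt (fun s => x * (log (s + x) - log (1 + s))) (x / (t + x) - x / (1 + t)) t := by
  have h1 : HasDerivAt (fun s => s + x) 1 t := (hasDerivAt_id' t).add_const x
  have h3 : HasDerivAt (fun s : ℝ => 1 + s) 1 t := (hasDerivAt_id' t).const_add 1
  have h4 := ((h1.log (by linarith)).fun_sub (h3.log (by linarith))).const_mul x
  refine h4.congr_deriv ?_
  field_simp

theorem integral_etaInt {x : ℝ} (hx : 0 ≤ x) :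
    IntegrableOn (etaInt x) (Set.Ioi 0) ∧ ∫ t in Set.Ioi 0, etaInt x t = negMulLog x + x := by
  rcases hx.eq_or_lt with rfl | hx
  · have : etaInt 0 = fun _ => (0 : ℝ) := by funext t; simp [etaInt]
    simp [this]
  have hA0 : ContinuousWithinAt (fun s => s * log (s + x) - s * log s) (Set.Ici 0) 0 := by
    refine ContinuousWithinAt.sub ?_ Real.continuous_mul_log.continuousWithinAt
    exact continuousWithinAt_id.mul ((continuousWithinAt_id.add continuousWithinAt_const).log
      (by simpa using hx.ne'))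
  have hB0 : ContinuousWithinAt (fun s => x * (log (s + x) - log (1 + s))) (Set.Ici 0) 0 :=
    (etaPrim_second hx le_rfl).continuousAt.continuousWithinAt
  have hAt : Tendsto (fun s => s * log (s + x) - s * log s) atTop (𝓝 x) := by
    refine (Real.tendsto_mul_log_one_add_div_atTop x).congr' ?_
    filter_upwards [eventually_gt_atTop 0] with s hs
    rw [show 1 + x / s = (s + x) / s by field_simp, log_div (by linarith) hs.ne']
    ring
  have hBt : Tendsto (fun s => x * (log (s + x) - log (1 + s))) atTop (𝓝 0) := by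
    have h1 : Tendsto (fun s : ℝ => 1 + (x - 1) / (1 + s)) atTop (𝓝 1) := by
      simpa using (tendsto_const_nhds.div_atTop (tendsto_atTop_add_const_left atTop 1 tendsto_id)).const_add
        (1 : ℝ)
    have h2 := ((h1.log one_ne_zero)).const_mul x
    rw [log_one, mul_zero] at h2
    refine h2.congr' ?_
    filter_upwards [eventually_gt_atTop 0] with s hs
    rw [show 1 + (x - 1) / (1 + s) = (s + x) / (1 + s) by field_simp; ring,
      log_div (by linarith) (by linarith)]
  have hdA : ∀ t ∈ Set.Ioi (0 : ℝ), HasDerivAt (fun s => s * log (s + x) - s * log s)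
      (log (1 + x / t) - x / (t + x)) t := fun t ht => etaPrim_first hx ht
  have hdB : ∀ t ∈ Set.Ioi (0 : ℝ), HasDerivAt (fun s => x * (log (s + x) - log (1 + s)))
      (x / (t + x) - x / (1 + t)) t := fun t ht => etaPrim_second hx (le_of_lt ht)
  have hAp : ∀ t ∈ Set.Ioi (0 : ℝ), 0 ≤ log (1 + x / t) - x / (t + x) := by
    intro t ht
    have ht' : 0 < t := ht
    have h := Real.one_sub_inv_le_log_of_pos (show 0 < 1 + x / t by positivity)
    have : 1 - (1 + x / t)⁻¹ = x / (t + x) := by field_simp; ring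
    linarith
  have iA := integrableOn_Ioi_deriv_of_nonneg hA0 hdA hAp hAt
  have iB : IntegrableOn (fun t => x / (t + x) - x / (1 + t)) (Set.Ioi 0) := by
    rcases le_total x 1 with h | h
    · refine integrableOn_Ioi_deriv_of_nonneg hB0 hdB (fun t ht => ?_) hBt
      have ht' : 0 < t := ht
      have := div_le_div_of_nonneg_left hx.le (show 0 < t + x by positivity) (by linarith : t + x ≤ 1 + t)
      linarith
    · refine integrableOn_Ioi_deriv_of_nonpos hB0 hdB (fun t ht => ?_) hBt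
      have ht' : 0 < t := ht
      have := div_le_div_of_nonneg_left hx.le (show 0 < 1 + t by positivity) (by linarith : 1 + t ≤ t + x)
      linarith
  have e : etaInt x = fun t => (log (1 + x / t) - x / (t + x)) + (x / (t + x) - x / (1 + t)) := by
    funext t; simp [etaInt]
  refine ⟨by rw [e]; exact iA.add iB, ?_⟩
  rw [e, integral_add iA iB, integral_Ioi_of_hasDerivAt_of_tendsto hA0 hdA iA hAt,
    integral_Ioi_of_hasDerivAt_of_tendsto hB0 hdB iB hBt]
  simp [negMulLog]
  ring

/-- Comparison of entropies from comparison of the log-determinants at every shift. -/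
theorem sum_negMulLog_nonneg {ι : Type*} [Fintype ι] (c a : ι → ℝ) (ha : ∀ i, 0 ≤ a i)
    (hc : ∑ i, c i = 0) (hca : ∑ i, c i * a i = 0)
    (h : ∀ t > 0, 0 ≤ ∑ i, c i * log (t + a i)) : 0 ≤ ∑ i, c i * negMulLog (a i) := by
  have hi : ∀ i ∈ (Finset.univ : Finset ι),
      Integrable (fun t => c i * etaInt (a i) t) (volume.restrict (Set.Ioi 0)) :=
    fun i _ => (integral_etaInt (ha i)).1.const_mul (c i)
  have he : ∑ i, c i * negMulLog (a i) = ∫ t in Set.Ioi 0, ∑ i, c i * etaInt (a i) t := by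
    rw [integral_finsetSum _ hi]
    simp only [integral_const_mul, fun i => (integral_etaInt (ha i)).2, mul_add,
      Finset.sum_add_distrib, hca, add_zero]
  rw [he]
  refine setIntegral_nonneg measurableSet_Ioi fun t ht => ?_
  have ht' : 0 < t := ht
  have e : ∀ i, c i * etaInt (a i) t =
      c i * log (t + a i) - c i * log t - c i * a i * (1 / (1 + t)) := by
    intro i
    have := ha i
    simp only [etaInt, show 1 + a i / t = (t + a i) / t by field_simp]
    rw [log_div (by positivity) ht'.ne']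
    ring
  simp only [e, Finset.sum_sub_distrib, ← Finset.sum_mul, hc, hca, zero_mul, sub_zero]
  exact h t ht'

/-- The larger eigenvalue of the scalar three-block matrix. -/
noncomputable def lamP (u v w : ℝ) : ℝ :=
  (u + v + w + √((u + v + w) ^ 2 - 4 * (v * w))) / 2

/-- The smaller eigenvalue of the scalar three-block matrix. -/
noncomputable def lamM (u v w : ℝ) : ℝ :=
  (u + v + w - √((u + v + w) ^ 2 - 4 * (v * w))) / 2

/-- The scalar entropy excess of the three-block matrix. -/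
noncomputable def threeFn (u v w : ℝ) : ℝ :=
  negMulLog (lamP u v w) + negMulLog (lamM u v w) - negMulLog v - negMulLog w - negMulLog u

section
variable {u v w : ℝ}

theorem disc_nonneg (hu : 0 ≤ u) (hv : 0 ≤ v) (hw : 0 ≤ w) :
    0 ≤ (u + v + w) ^ 2 - 4 * (v * w) := by
  have h1 : 0 ≤ (v - w) ^ 2 := sq_nonneg _
  have h2 : 0 ≤ u * (u + 2 * (v + w)) := by positivity
  linear_combination h1 + h2

theorem lamP_nonneg (hu : 0 ≤ u) (hv : 0 ≤ v) (hw : 0 ≤ w) : 0 ≤ lamP u v w := by
  unfold lamP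
  positivity

theorem lamM_nonneg (hu : 0 ≤ u) (hv : 0 ≤ v) (hw : 0 ≤ w) : 0 ≤ lamM u v w := by
  unfold lamM
  have h : √((u + v + w) ^ 2 - 4 * (v * w)) ≤ u + v + w := by
    refine (Real.sqrt_le_left (by positivity)).mpr ?_
    have : 0 ≤ v * w := mul_nonneg hv hw
    linarith
  linarith

theorem lineTerm_eq_etaInt (hu : 0 ≤ u) (hv : 0 ≤ v) (hw : 0 ≤ w) {t : ℝ} (ht : 0 < t) :
    lineTerm t u v w - u / (1 + t) =
      etaInt (lamP u v w) t + etaInt (lamM u v w) t - etaInt v t - etaInt w t := by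
  have hP := lamP_nonneg hu hv hw
  have hM := lamM_nonneg hu hv hw
  have hsq := Real.sq_sqrt (disc_nonneg hu hv hw)
  have hsum : lamP u v w + lamM u v w = u + v + w := by unfold lamP lamM; ring
  have hprod : lamP u v w * lamM u v w = v * w := by
    unfold lamP lamM
    linear_combination (-1 / 4 : ℝ) * hsq
  set P := lamP u v w
  set M := lamM u v w
  have e : (1 + u * t / ((t + v) * (t + w))) * ((1 + v / t) * (1 + w / t)) =
      (1 + P / t) * (1 + M / t) := by
    field_simp
    linear_combination (-1 : ℝ) * hprod - t * hsum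
  have hl := congrArg log e
  rw [log_mul (by positivity) (by positivity), log_mul (by positivity) (by positivity),
    log_mul (by positivity) (by positivity)] at hl
  unfold lineTerm etaInt
  have hu' : u / (1 + t) = P / (1 + t) + M / (1 + t) - v / (1 + t) - w / (1 + t) := by
    rw [show u = P + M - v - w by linarith]
    ring
  linarith

theorem integral_lineTerm (hu : 0 ≤ u) (hv : 0 ≤ v) (hw : 0 ≤ w) :
    IntegrableOn (fun t => lineTerm t u v w - u / (1 + t)) (Set.Ioi 0) ∧
      ∫ t in Set.Ioi 0, (lineTerm t u v w - u / (1 + t)) = threeFn u v w + negMulLog u + u := by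
  obtain ⟨i1, e1⟩ := integral_etaInt (lamP_nonneg hu hv hw)
  obtain ⟨i2, e2⟩ := integral_etaInt (lamM_nonneg hu hv hw)
  obtain ⟨i3, e3⟩ := integral_etaInt hv
  obtain ⟨i4, e4⟩ := integral_etaInt hw
  have i12 : IntegrableOn (fun t => etaInt (lamP u v w) t + etaInt (lamM u v w) t) (Set.Ioi 0) :=
    i1.add i2
  have i123 : IntegrableOn (fun t => etaInt (lamP u v w) t + etaInt (lamM u v w) t - etaInt v t)
      (Set.Ioi 0) := i12.sub i3
  have heq : Set.EqOn (fun t => lineTerm t u v w - u / (1 + t))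
      (fun t => etaInt (lamP u v w) t + etaInt (lamM u v w) t - etaInt v t - etaInt w t)
      (Set.Ioi 0) := fun t ht => lineTerm_eq_etaInt hu hv hw ht
  refine ⟨(i123.sub i4).congr_fun heq.symm measurableSet_Ioi, ?_⟩
  rw [setIntegral_congr_fun measurableSet_Ioi heq, integral_sub i123 i4, integral_sub i12 i3,
    integral_add i1 i2, e1, e2, e3, e4]
  simp only [threeFn]
  have hsum : lamP u v w + lamM u v w = u + v + w := by unfold lamP lamM; ring
  linarith

theorem threeFn_zero (hv : 0 ≤ v) (hw : 0 ≤ w) : threeFn 0 v w = 0 := by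
  have h := (integral_lineTerm le_rfl hv hw).2
  simp [lineTerm] at h
  linarith

theorem threeFn_smul {c : ℝ} (hc : 0 ≤ c) (u v w : ℝ) :
    threeFn (c * u) (c * v) (c * w) = c * threeFn u v w := by
  have hP : lamP (c * u) (c * v) (c * w) = c * lamP u v w := by
    unfold lamP
    rw [show (c * u + c * v + c * w) ^ 2 - 4 * (c * v * (c * w)) =
      c ^ 2 * ((u + v + w) ^ 2 - 4 * (v * w)) by ring, Real.sqrt_mul (sq_nonneg c),
      Real.sqrt_sq hc]
    ring
  have hM : lamM (c * u) (c * v) (c * w) = c * lamM u v w := by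
    unfold lamM
    rw [show (c * u + c * v + c * w) ^ 2 - 4 * (c * v * (c * w)) =
      c ^ 2 * ((u + v + w) ^ 2 - 4 * (v * w)) by ring, Real.sqrt_mul (sq_nonneg c),
      Real.sqrt_sq hc]
    ring
  have hsum : lamP u v w + lamM u v w = u + v + w := by unfold lamP lamM; ring
  simp only [threeFn, hP, hM, negMulLog_mul]
  linear_combination (negMulLog c) * hsum

theorem threeFn_anti (hu : 0 ≤ u) (hv : 0 ≤ v) (hw : 0 ≤ w) {v' w' : ℝ} (hvv : v ≤ v')
    (hww : w ≤ w') : threeFn u v' w' ≤ threeFn u v w := by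
  obtain ⟨i, e⟩ := integral_lineTerm hu hv hw
  obtain ⟨i', e'⟩ := integral_lineTerm hu (hv.trans hvv) (hw.trans hww)
  have h := setIntegral_mono_on i' i measurableSet_Ioi
    (fun t ht => sub_le_sub_right (lineTerm_mono ht hu hv hw hvv hww) _)
  linarith

theorem threeFn_convex (hu : 0 ≤ u) {v₁ v₂ w₁ w₂ p q : ℝ} (hv₁ : 0 ≤ v₁) (hv₂ : 0 ≤ v₂)
    (hw₁ : 0 ≤ w₁) (hw₂ : 0 ≤ w₂) (hp : 0 ≤ p) (hq : 0 ≤ q) (hpq : p + q = 1) :
    threeFn u (p * v₁ + q * v₂) (p * w₁ + q * w₂) ≤
      p * threeFn u v₁ w₁ + q * threeFn u v₂ w₂ := by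
  obtain ⟨i₁, e₁⟩ := integral_lineTerm hu hv₁ hw₁
  obtain ⟨i₂, e₂⟩ := integral_lineTerm hu hv₂ hw₂
  obtain ⟨i, e⟩ := integral_lineTerm hu (show 0 ≤ p * v₁ + q * v₂ by positivity)
    (show 0 ≤ p * w₁ + q * w₂ by positivity)
  have h := setIntegral_mono_on i ((i₁.const_mul p).add (i₂.const_mul q)) measurableSet_Ioi
    (fun t ht => by
      have := lineTerm_convex (t := t) ht hu hv₁ hv₂ hw₁ hw₂ hp hq hpq
      simp only [Pi.add_apply]
      linear_combination this + (u / (1 + t)) * hpq)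
  simp only [Pi.add_apply] at h
  rw [integral_add (i₁.const_mul p) (i₂.const_mul q), integral_const_mul, integral_const_mul,
    e, e₁, e₂] at h
  linear_combination h + (negMulLog u + u) * hpq

theorem threeFn_subadd {u₁ v₁ w₁ u₂ v₂ w₂ : ℝ} (hu₁ : 0 ≤ u₁) (hv₁ : 0 ≤ v₁) (hw₁ : 0 ≤ w₁)
    (hu₂ : 0 ≤ u₂) (hv₂ : 0 ≤ v₂) (hw₂ : 0 ≤ w₂) :
    threeFn (u₁ + u₂) (v₁ + v₂) (w₁ + w₂) ≤ threeFn u₁ v₁ w₁ + threeFn u₂ v₂ w₂ := by
  rcases hu₁.eq_or_lt with rfl | h1
  · rw [threeFn_zero hv₁ hw₁, zero_add, zero_add]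
    exact threeFn_anti hu₂ hv₂ hw₂ (by linarith) (by linarith)
  rcases hu₂.eq_or_lt with rfl | h2
  · rw [threeFn_zero hv₂ hw₂, add_zero, add_zero]
    exact threeFn_anti hu₁ hv₁ hw₁ (by linarith) (by linarith)
  set a := u₁ + u₂ with ha
  have ha0 : 0 < a := by positivity
  set p := u₁ / a with hp
  set q := u₂ / a with hq
  have hp0 : 0 < p := by positivity
  have hq0 : 0 < q := by positivity
  have hpq : p + q = 1 := by rw [hp, hq, ← add_div, div_self ha0.ne']
  have h := threeFn_convex ha0.le (div_nonneg hv₁ hp0.le) (div_nonneg hv₂ hq0.le)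
    (div_nonneg hw₁ hp0.le) (div_nonneg hw₂ hq0.le) hp0.le hq0.le hpq
  rw [← threeFn_smul hp0.le a (v₁ / p) (w₁ / p), ← threeFn_smul hq0.le a (v₂ / q) (w₂ / q),
    mul_div_cancel₀ v₁ hp0.ne', mul_div_cancel₀ v₂ hq0.ne', mul_div_cancel₀ w₁ hp0.ne',
    mul_div_cancel₀ w₂ hq0.ne', hp, hq, div_mul_cancel₀ u₁ ha0.ne',
    div_mul_cancel₀ u₂ ha0.ne'] at h
  exact h

theorem threeFn_sum {ι : Type*} (s : Finset ι) (u v w : ι → ℝ) (hu : ∀ i, 0 ≤ u i)
    (hv : ∀ i, 0 ≤ v i) (hw : ∀ i, 0 ≤ w i) :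
    threeFn (∑ i ∈ s, u i) (∑ i ∈ s, v i) (∑ i ∈ s, w i) ≤
      ∑ i ∈ s, threeFn (u i) (v i) (w i) := by
  classical
  induction s using Finset.induction_on with
  | empty => simp [threeFn_zero le_rfl le_rfl]
  | @insert a s ha ih =>
    simp only [Finset.sum_insert ha]
    refine (threeFn_subadd (hu a) (hv a) (hw a) (Finset.sum_nonneg fun i _ => hu i)
      (Finset.sum_nonneg fun i _ => hv i) (Finset.sum_nonneg fun i _ => hw i)).trans ?_
    linarith

end

end Vale.Agent.P358
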