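import Mathlib
import Vale.Agent.P358.Mix
import Vale.Agent.P358.ScalarBlock

/-!
# P358: the output entropy of a pure input is convex in its excited population
-/

namespace Vale.Agent.P358

open Real

/-- Output entropy (natural log) of amplitude damping on a pure state of excited population `q`. -/
noncomputable def pureNat (g q : ℝ) : ℝ :=
  binEntropy ((1 - √(1 - 4 * g * (1 - g) * q ^ 2)) / 2)

theorem pureNat_eq_lam (g q : ℝ) :
    pureNat g q = negMulLog (lamP (1 - q) (g * q) ((1 - g) * q)) +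
      negMulLog (lamM (1 - q) (g * q) ((1 - g) * q)) := by
  have hs : 1 - q + g * q + (1 - g) * q = 1 := by ring
  have hd : (1 : ℝ) ^ 2 - 4 * (g * q * ((1 - g) * q)) = 1 - 4 * g * (1 - g) * q ^ 2 := by ring
  unfold pureNat lamP lamM
  rw [binEntropy_eq_negMulLog_add_negMulLog_one_sub, add_comm, hs, hd]
  congr 2
  ring

/-- `binEntropy ((1 - √(1 - x²)) / 2)`. -/
noncomputable def circEnt (x : ℝ) : ℝ := binEntropy ((1 - √(1 - x ^ 2)) / 2)

theorem two_mul_le_logDiff {r : ℝ} (h0 : 0 < r) (h1 : r < 1) :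
    2 * r ≤ log (1 + r) - log (1 - r) := by
  have h := Real.le_log_one_add_of_nonneg (x := 2 * r / (1 - r))
    (div_nonneg (by linarith) (by linarith))
  have e1 : 2 * (2 * r / (1 - r)) / (2 * r / (1 - r) + 2) = 2 * r := by
    have : 1 - r ≠ 0 := by linarith
    field_simp
    ring
  have e2 : 1 + 2 * r / (1 - r) = (1 + r) / (1 - r) := by
    have : 1 - r ≠ 0 := by linarith
    field_simp
    ring
  rw [e1, e2, log_div (by linarith) (by linarith)] at h
  exact h

/-- The derivative of `circEnt` as a function of `r = √(1 - x²)`. -/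
noncomputable def slope (r : ℝ) : ℝ := √(1 - r ^ 2) / r * (log (1 + r) - log (1 - r)) / 2

theorem slope_antitone : AntitoneOn slope (Set.Ioo 0 1) := by
  have hd : ∀ r ∈ Set.Ioo (0 : ℝ) 1, HasDerivAt slope
      ((2 * r - (log (1 + r) - log (1 - r))) / (r ^ 2 * √(1 - r ^ 2)) / 2) r := by
    rintro r ⟨h0, h1⟩
    have hp : 0 < 1 - r ^ 2 := by nlinarith
    have hs := Real.sqrt_pos.2 hp
    have a : HasDerivAt (fun r => √(1 - r ^ 2)) ((-(2 * r)) / (2 * √(1 - r ^ 2))) r := by
      have := ((hasDerivAt_pow 2 r).const_sub 1).sqrt hp.ne'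
      simpa using this
    have b : HasDerivAt (fun r => log (1 + r) - log (1 - r)) (1 / (1 + r) - -1 / (1 - r)) r :=
      (((hasDerivAt_id' r).const_add 1).log (by linarith)).sub
        (((hasDerivAt_id' r).const_sub 1).log (by linarith))
    refine (((a.div (hasDerivAt_id' r) h0.ne').mul b).div_const 2).congr_deriv ?_
    have hsq := Real.sq_sqrt hp.le
    set s := √(1 - r ^ 2) with hsdef
    have h2 : 1 - r ≠ 0 := by linarith
    have h3 : 1 + r ≠ 0 := by linarith
    simp only [Pi.div_apply, ← hsdef]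
    field_simp
    rw [hsq]
    ring
  refine antitoneOn_of_deriv_nonpos (convex_Ioo 0 1)
    (fun r hr => (hd r hr).continuousAt.continuousWithinAt) ?_ ?_
  · rw [interior_Ioo]; exact fun r hr => (hd r hr).differentiableAt.differentiableWithinAt
  · rw [interior_Ioo]
    intro r hr
    rw [(hd r hr).deriv]
    have := two_mul_le_logDiff hr.1 hr.2
    exact div_nonpos_of_nonpos_of_nonneg
      (div_nonpos_of_nonpos_of_nonneg (by linarith) (by positivity)) (by norm_num)

theorem hasDerivAt_circEnt {x : ℝ} (h0 : 0 < x) (h1 : x < 1) :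
    HasDerivAt circEnt (slope √(1 - x ^ 2)) x := by
  have hp : 0 < 1 - x ^ 2 := by nlinarith
  have hr0 := Real.sqrt_pos.2 hp
  have hr1 : √(1 - x ^ 2) < 1 := by
    rw [Real.sqrt_lt' one_pos]; nlinarith
  have hx : √(1 - √(1 - x ^ 2) ^ 2) = x := by
    rw [Real.sq_sqrt hp.le, sub_sub_cancel, Real.sqrt_sq h0.le]
  have a : HasDerivAt (fun x => (1 - √(1 - x ^ 2)) / 2)
      (-((-(2 * x)) / (2 * √(1 - x ^ 2))) / 2) x := by
    have := (((hasDerivAt_pow 2 x).const_sub 1).sqrt hp.ne').const_sub 1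
    simpa using this.div_const 2
  have hb : HasDerivAt binEntropy
      (log (1 - (1 - √(1 - x ^ 2)) / 2) - log ((1 - √(1 - x ^ 2)) / 2))
      ((1 - √(1 - x ^ 2)) / 2) :=
    Real.hasDerivAt_binEntropy (ne_of_gt (by linarith)) (ne_of_lt (by linarith))
  refine (hb.comp x a).congr_deriv ?_
  rw [slope, hx]
  set r := √(1 - x ^ 2)
  rw [show 1 - (1 - r) / 2 = (1 + r) / 2 by ring, log_div (by linarith) two_ne_zero,
    log_div (by linarith) two_ne_zero]
  field_simp
  ring

theorem circEnt_convexOn : ConvexOn ℝ (Set.Icc 0 1) circEnt := by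
  refine MonotoneOn.convexOn_of_deriv (convex_Icc 0 1) ?_ ?_ ?_
  · exact (Real.binEntropy_continuous.comp (by fun_prop)).continuousOn
  · rw [interior_Icc]
    exact fun x hx => (hasDerivAt_circEnt hx.1 hx.2).differentiableAt.differentiableWithinAt
  · rw [interior_Icc]
    rintro x ⟨hx0, hx1⟩ y ⟨hy0, hy1⟩ hxy
    rw [(hasDerivAt_circEnt hx0 hx1).deriv, (hasDerivAt_circEnt hy0 hy1).deriv]
    have m : ∀ z : ℝ, 0 < z → z < 1 → √(1 - z ^ 2) ∈ Set.Ioo (0 : ℝ) 1 := fun z a b =>
      ⟨Real.sqrt_pos.2 (by nlinarith), by rw [Real.sqrt_lt' one_pos]; nlinarith⟩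
    exact slope_antitone (m y hy0 hy1) (m x hx0 hx1) (Real.sqrt_le_sqrt (by nlinarith))

theorem pureNat_convexOn {g : ℝ} (hg0 : 0 ≤ g) (hg1 : g ≤ 1) :
    ConvexOn ℝ (Set.Icc 0 1) (pureNat g) := by
  have hk0 : 0 ≤ 4 * g * (1 - g) := by nlinarith
  have hk1 : 4 * g * (1 - g) ≤ 1 := by nlinarith [sq_nonneg (2 * g - 1)]
  set c := √(4 * g * (1 - g)) with hc
  have hc0 : 0 ≤ c := Real.sqrt_nonneg _
  have hc1 : c ≤ 1 := Real.sqrt_le_one.2 hk1
  have e : ∀ q, pureNat g q = circEnt (c * q) := fun q => by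
    simp only [pureNat, circEnt, mul_pow, hc, Real.sq_sqrt hk0]
  refine ⟨convex_Icc 0 1, fun x hx y hy a b ha hb hab => ?_⟩
  have mx : c * x ∈ Set.Icc (0 : ℝ) 1 := ⟨mul_nonneg hc0 hx.1, mul_le_one₀ hc1 hx.1 hx.2⟩
  have my : c * y ∈ Set.Icc (0 : ℝ) 1 := ⟨mul_nonneg hc0 hy.1, mul_le_one₀ hc1 hy.1 hy.2⟩
  have h := circEnt_convexOn.2 mx my ha hb hab
  simp only [e, smul_eq_mul] at h ⊢
  rwa [mul_add, mul_left_comm c a, mul_left_comm c b]

/-- Jensen's inequality for `Mix`. -/
theorem Mix.jensen {f : ℝ → ℝ} (hf : ConvexOn ℝ (Set.Icc 0 1) f) {m s v : ℝ} (h : Mix f m s v) :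
    m * f (s / m) ≤ v := by
  obtain ⟨l, hl, rfl, rfl, hv⟩ := h
  refine le_trans ?_ hv
  clear hv
  suffices H : 0 ≤ (l.map fun p => p.1 * p.2).sum ∧
      (l.map fun p => p.1 * p.2).sum ≤ (l.map fun p => p.1).sum ∧
      (l.map fun p => p.1).sum * f ((l.map fun p => p.1 * p.2).sum / (l.map fun p => p.1).sum) ≤
        (l.map fun p => p.1 * f p.2).sum from H.2.2
  induction l with
  | nil => simp
  | cons p l ih =>
    obtain ⟨hw, hq0, hq1⟩ := hl p (List.mem_cons_self ..)
    obtain ⟨hs0, hsm, hi⟩ := ih fun r hr => hl r (List.mem_cons_of_mem _ hr)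
    simp only [List.map_cons, List.sum_cons]
    set w := p.1
    set q := p.2
    set M := (l.map fun p => p.1).sum
    set S := (l.map fun p => p.1 * p.2).sum
    have hM : 0 ≤ M := hs0.trans hsm
    refine ⟨by positivity, by nlinarith, ?_⟩
    rcases (add_nonneg hw hM).eq_or_lt with h0 | hpos
    · have w0 : w = 0 := by linarith
      have M0 : M = 0 := by linarith
      rw [M0] at hi
      simpa [w0, M0] using hi
    · have hmem : S / M ∈ Set.Icc (0 : ℝ) 1 :=
        ⟨div_nonneg hs0 hM, div_le_one_of_le₀ hsm hM⟩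
      have hqmem : q ∈ Set.Icc (0 : ℝ) 1 := ⟨hq0, hq1⟩
      have := hf.2 hqmem hmem (show 0 ≤ w / (w + M) by positivity)
        (show 0 ≤ M / (w + M) by positivity) (by rw [← add_div, div_self hpos.ne'])
      simp only [smul_eq_mul] at this
      have hMS : M * (S / M) = S := by
        rcases hM.eq_or_lt with h | h
        · rw [← h, zero_mul]; linarith
        · rw [mul_div_cancel₀ _ h.ne']
      rw [show w / (w + M) * q + M / (w + M) * (S / M) = (w * q + S) / (w + M) by
        rw [div_mul_eq_mul_div, div_mul_eq_mul_div, ← add_div, hMS]] at this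
      calc (w + M) * f ((w * q + S) / (w + M))
          ≤ (w + M) * (w / (w + M) * f q + M / (w + M) * f (S / M)) :=
            mul_le_mul_of_nonneg_left this hpos.le
        _ = w * f q + M * f (S / M) := by field_simp
        _ ≤ _ := by linarith

theorem pureNat_jensen {g m s v : ℝ} (hg0 : 0 ≤ g) (hg1 : g ≤ 1) (h : Mix (pureNat g) m s v) :
    m * pureNat g (s / m) ≤ v :=
  h.jensen (pureNat_convexOn hg0 hg1)

end Vale.Agent.P358
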