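import Vale.Agent.P358.Additivity
import Vale.Agent.P358.Entropy
import Vale.Agent.P358.PureFn

/-!
# Upper bound for block inputs of amplitude damping, in von Neumann entropy
-/

namespace Vale.Agent.P358

open Matrix Finset
open scoped ComplexOrder

namespace Ind

theorem gadc_single {g : ℝ} (hg0 : 0 ≤ g) (hg1 : g ≤ 1) (a b x y : Fin 2) :
    gadc g 0 (Matrix.single a b (1 : ℂ)) x y = ∑ s, kr g s x a * star (kr g s y b) := by
  have h1 : (Real.sqrt g : ℂ) * (Real.sqrt g : ℂ) = (g : ℂ) := by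
    rw [← Complex.ofReal_mul, Real.mul_self_sqrt hg0]
  have h2 : (Real.sqrt (1 - g) : ℂ) * (Real.sqrt (1 - g) : ℂ) = 1 - (g : ℂ) := by
    rw [← Complex.ofReal_mul, Real.mul_self_sqrt (sub_nonneg.mpr hg1)]
    push_cast
    ring
  fin_cases a <;> fin_cases b <;> fin_cases x <;> fin_cases y <;>
    simp [gadc, kr, Matrix.single, Fin.sum_univ_two, Complex.conj_ofReal, h1, h2]

theorem tensorPow_eq_chanN {g : ℝ} (hg0 : 0 ≤ g) (hg1 : g ≤ 1) (n : ℕ)
    (X : Matrix (Cfg n) (Cfg n) ℂ) : tensorPow (gadc g 0) n X = chanN g n X := by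
  ext x y
  simp only [tensorPow, of_apply, gadc_single hg0 hg1, Fintype.prod_sum, chanN, krausN,
    Matrix.sum_apply, Matrix.mul_apply, conjTranspose_apply, sum_mul, star_prod]
  rw [sum_comm_cycle]
  refine sum_congr rfl fun s _ => ?_
  rw [sum_comm]
  refine sum_congr rfl fun b _ => sum_congr rfl fun a _ => ?_
  rw [prod_mul_distrib]
  ring

theorem superadd_vN : Superadd (fun I _ _ => vN (ι := I)) := by
  intro n M hM htr
  have hm0 : ∀ k, 0 ≤ (M k).trace.re := fun k => (Complex.le_def.1 (hM k).trace_nonneg).1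
  have hw1 : ∑ k, (M k).trace.re = 1 := by rw [← htr, trace_sum, Complex.re_sum]
  have hback : ∀ k, ((M k).trace.re : ℂ) • (((M k).trace.re⁻¹ : ℝ) : ℂ) • M k = M k := fun k => by
    rcases eq_or_ne (M k).trace.re 0 with h | h
    · have him : (M k).trace.im = 0 := (Complex.le_def.1 (hM k).trace_nonneg).2.symm
      rw [(hM k).trace_eq_zero_iff.1 (Complex.ext h him)]
      simp
    · rw [smul_smul, ← Complex.ofReal_mul, mul_inv_cancel₀ h, Complex.ofReal_one, one_smul]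
  have hA : ∀ k, ((((M k).trace.re⁻¹ : ℝ) : ℂ) • M k).PosSemidef := fun k =>
    (hM k).smul (by exact_mod_cast inv_nonneg.mpr (hm0 k))
  have hterm : ∀ k, vN (M k) - Real.negMulLog (M k).trace.re =
      (M k).trace.re * vN ((((M k).trace.re⁻¹ : ℝ) : ℂ) • M k) := fun k => by
    conv_lhs => rw [← hback k]
    rw [vN_smul (hA k) (hm0 k), hback]
    rcases eq_or_ne (M k).trace.re 0 with h | h
    · simp [h]
    · simp [trace_smul, h]
  have h := vN_concave (fun k => (M k).trace.re)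
    (fun k => (((M k).trace.re⁻¹ : ℝ) : ℂ) • M k) hm0 hw1 hA
  simp only [hback] at h
  rw [htr, Real.negMulLog_one, sub_zero]
  simp only [hterm]
  exact h

theorem vN_cfg_zero (N : Matrix (Cfg 0) (Cfg 0) ℂ) :
    vN (N * Nᴴ) = Real.negMulLog (frob N) := by
  rw [vN_unique (isHermitian_mul_conjTranspose_self N), ← trace_mul_conjTranspose]
  simp [Matrix.trace]

/-- (b) The output is a state whose excited populations are `1 - g` times the input ones. -/
theorem output_state {g : ℝ} (hg0 : 0 ≤ g) (hg1 : g ≤ 1) {n : ℕ}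
    {ρ : Matrix (Cfg n) (Cfg n) ℂ} (hρ : IsState ρ) :
    IsState (tensorPow (gadc g 0) n ρ) ∧
      ∀ i, pop i (tensorPow (gadc g 0) n ρ) = (1 - g) * pop i ρ := by
  rw [tensorPow_eq_chanN hg0 hg1]
  refine ⟨⟨chanN_posSemidef g hρ.1, ?_⟩, fun i => pop_chanN hg0 hg1 i hρ.1⟩
  refine Complex.ext ?_ ?_
  · rw [trace_chanN hg0 hg1 hρ.1, hρ.2]
  · rw [← (Complex.le_def.1 (chanN_posSemidef g hρ.1).trace_nonneg).2]
    simp

/-- The mixture bound for one state. -/
theorem output_mix {g : ℝ} (hg0 : 0 ≤ g) (hg1 : g ≤ 1) {f : ℝ → ℝ}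
    (hL : OneStep (fun I _ _ => vN (ι := I)) f g) {n : ℕ} {ρ : Matrix (Cfg n) (Cfg n) ℂ}
    (hρ : IsState ρ) :
    ∃ v : Fin n → ℝ, (∀ i, Mix f 1 (pop i ρ) (v i)) ∧
      ∑ i, v i ≤ vN (tensorPow (gadc g 0) n ρ) := by
  rw [tensorPow_eq_chanN hg0 hg1]
  exact state_bound (fun I _ _ => vN (ι := I)) f hg0 hg1 hL vN_cfg_zero
    (fun n M => vN_submatrix (splitFirst n) M) superadd_vN hρ.1 (by rw [hρ.2]; rfl)

/-- (a) The output entropy is at least the sum of `f` of the site populations. -/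
theorem sum_le_vN_output {g : ℝ} (hg0 : 0 ≤ g) (hg1 : g ≤ 1) {f : ℝ → ℝ}
    (hL : OneStep (fun I _ _ => vN (ι := I)) f g)
    (hJ : ∀ m s v, Mix f m s v → m * f (s / m) ≤ v) {n : ℕ} {ρ : Matrix (Cfg n) (Cfg n) ℂ}
    (hρ : IsState ρ) :
    ∑ i, f (pop i ρ) ≤ vN (tensorPow (gadc g 0) n ρ) := by
  obtain ⟨v, hv, hle⟩ := output_mix hg0 hg1 hL hρ
  exact (sum_le_sum fun i _ => by simpa using hJ _ _ _ (hv i)).trans hle

/-- (c) The Holevo quantity of an ensemble is at most the sum of the single-site terms at the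
average populations. -/
theorem holevo_sites {g : ℝ} (hg0 : 0 ≤ g) (hg1 : g ≤ 1) {f : ℝ → ℝ}
    (hL : OneStep (fun I _ _ => vN (ι := I)) f g)
    (hJ : ∀ m s v, Mix f m s v → m * f (s / m) ≤ v) {n : ℕ} {α : Type*} [Fintype α]
    (w : α → ℝ) (ρ : α → Matrix (Cfg n) (Cfg n) ℂ) (hw : ∀ a, 0 ≤ w a) (hw1 : ∑ a, w a = 1)
    (hρ : ∀ a, IsState (ρ a)) :
    vN (∑ a, (w a : ℂ) • tensorPow (gadc g 0) n (ρ a)) -
        ∑ a, w a * vN (tensorPow (gadc g 0) n (ρ a)) ≤
      ∑ i, (Real.binEntropy ((1 - g) * ∑ a, w a * pop i (ρ a)) -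
        f (∑ a, w a * pop i (ρ a))) := by
  choose v hv hle using fun a => output_mix hg0 hg1 hL (hρ a)
  have hJ' : ∀ i : Fin n, f (∑ a, w a * pop i (ρ a)) ≤ ∑ a, w a * v a i := fun i => by
    have := hJ _ _ _ (Mix.sum univ fun a _ => (hv a i).scale (hw a))
    simpa [hw1] using this
  have hout : IsState (∑ a, (w a : ℂ) • tensorPow (gadc g 0) n (ρ a)) := by
    refine ⟨posSemidef_sum _ fun a _ =>
      (output_state hg0 hg1 (hρ a)).1.1.smul (by exact_mod_cast hw a), ?_⟩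
    simp only [trace_sum, trace_smul, (output_state hg0 hg1 (hρ _)).1.2, smul_eq_mul, mul_one]
    exact_mod_cast hw1
  have h1 := vN_le_marginals hout
  have hmarg : ∀ i : Fin n,
      (∑ x with x i = 1, ((∑ a, (w a : ℂ) • tensorPow (gadc g 0) n (ρ a)) x x).re) =
        (1 - g) * ∑ a, w a * pop i (ρ a) := fun i => by
    have hp := fun a => (output_state hg0 hg1 (hρ a)).2 i
    simp only [pop, ← sum_filter] at hp ⊢
    rw [mul_sum]
    simp only [Matrix.sum_apply, Complex.re_sum, Matrix.smul_apply, smul_eq_mul,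
      Complex.re_ofReal_mul]
    rw [sum_comm]
    refine sum_congr rfl fun a _ => ?_
    rw [← mul_sum, hp a]
    ring
  simp only [hmarg] at h1
  have h2 : ∑ i, f (∑ a, w a * pop i (ρ a)) ≤ ∑ a, w a * ∑ i, v a i := by
    refine (sum_le_sum fun i _ => hJ' i).trans (le_of_eq ?_)
    rw [sum_comm]
    simp only [mul_sum]
  have h3 : ∑ a, w a * ∑ i, v a i ≤ ∑ a, w a * vN (tensorPow (gadc g 0) n (ρ a)) :=
    sum_le_sum fun a _ => mul_le_mul_of_nonneg_left (hle a) (hw a)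
  rw [sum_sub_distrib]
  linarith

/-- (a) for amplitude damping. -/
theorem sum_pureNat_le_vN_output {g : ℝ} (hg0 : 0 ≤ g) (hg1 : g ≤ 1)
    (hL : OneStep (fun I _ _ => vN (ι := I)) (pureNat g) g) {n : ℕ}
    {ρ : Matrix (Cfg n) (Cfg n) ℂ} (hρ : IsState ρ) :
    ∑ i, pureNat g (pop i ρ) ≤ vN (tensorPow (gadc g 0) n ρ) :=
  sum_le_vN_output hg0 hg1 hL (fun _ _ _ h => pureNat_jensen hg0 hg1 h) hρ

/-- (c) for amplitude damping. -/
theorem holevo_pureNat {g : ℝ} (hg0 : 0 ≤ g) (hg1 : g ≤ 1)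
    (hL : OneStep (fun I _ _ => vN (ι := I)) (pureNat g) g) {n : ℕ} {α : Type*} [Fintype α]
    (w : α → ℝ) (ρ : α → Matrix (Cfg n) (Cfg n) ℂ) (hw : ∀ a, 0 ≤ w a) (hw1 : ∑ a, w a = 1)
    (hρ : ∀ a, IsState (ρ a)) :
    vN (∑ a, (w a : ℂ) • tensorPow (gadc g 0) n (ρ a)) -
        ∑ a, w a * vN (tensorPow (gadc g 0) n (ρ a)) ≤
      ∑ i, (Real.binEntropy ((1 - g) * ∑ a, w a * pop i (ρ a)) -
        pureNat g (∑ a, w a * pop i (ρ a))) :=
  holevo_sites hg0 hg1 hL (fun _ _ _ h => pureNat_jensen hg0 hg1 h) w ρ hw hw1 hρ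

end Ind

end Vale.Agent.P358
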