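import Mathlib

/-!
# P358: log-determinant convexity and the block determinant of an amplitude-damped pure state

`logRatio K D = log ‖det (D + K)‖ - log ‖det D‖` is midpoint convex in positive definite `D` for
every anti-Hermitian `K`, and `det (t + N N†) = det (D + K)` for `N = [[P, aQ], [bQ, 0]]`.
-/

namespace Vale.Agent.P358

open Matrix
open scoped ComplexOrder MatrixOrder

variable {ι κ : Type*} [Fintype ι] [DecidableEq ι] [Fintype κ] [DecidableEq κ]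

theorem norm_det_pos {A : Matrix ι ι ℂ} (h : A.PosDef) : 0 < ‖A.det‖ :=
  norm_pos_iff.2 h.det_pos.ne'

theorem norm_det_eq_re {A : Matrix ι ι ℂ} (h : A.PosSemidef) : ‖A.det‖ = A.det.re :=
  by
  have hn := h.det_nonneg
  rw [Complex.nonneg_iff] at hn
  rw [show A.det = ((A.det.re : ℝ) : ℂ) from Complex.ext (by simp) (by simp [hn.2]),
    Complex.norm_real, Real.norm_eq_abs, Complex.ofReal_re, abs_of_nonneg hn.1]

/-- `det (1 + P) ≥ 1` for positive semidefinite `P`. -/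
theorem one_le_norm_det_one_add {P : Matrix ι ι ℂ} (hP : P.PosSemidef) :
    1 ≤ ‖(1 + P).det‖ := by
  have e : (-1 - P).det = ∏ i, ((-1 : ℂ) - (hP.1.eigenvalues i : ℂ)) := by
    have h := Matrix.eval_charpoly P (-1)
    rw [hP.1.charpoly_eq] at h
    simp only [Polynomial.eval_prod, Polynomial.eval_sub, Polynomial.eval_X, Polynomial.eval_C] at h
    rw [show (-1 - P) = scalar ι (-1 : ℂ) - P by rw [map_neg, map_one]]
    exact h.symm
  have e2 : ‖(1 + P).det‖ = ‖(-1 - P).det‖ := by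
    rw [show (-1 - P) = -(1 + P) by abel, det_neg]
    simp
  rw [e2, e, norm_prod]
  refine Finset.one_le_prod fun i _ => ?_
  have := hP.eigenvalues_nonneg i
  rw [show ((-1 : ℂ) - (hP.1.eigenvalues i : ℂ)) = ((-(1 + hP.1.eigenvalues i) : ℝ) : ℂ) by
      push_cast; ring, Complex.norm_real, Real.norm_eq_abs, abs_neg, abs_of_nonneg (by linarith)]
  linarith

/-- A positive definite matrix is `B * B` for an invertible Hermitian `B`. -/
theorem exists_sqrt {M : Matrix ι ι ℂ} (hM : M.PosDef) :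
    ∃ B : Matrix ι ι ℂ, B.IsHermitian ∧ IsUnit B.det ∧ B * B = M := by
  have h0 : (0 : Matrix ι ι ℂ) ≤ M := nonneg_iff_posSemidef.2 hM.posSemidef
  have e := CFC.sqrt_mul_sqrt_self M h0
  refine ⟨CFC.sqrt M, (CFC.sqrt_nonneg M).posSemidef.isHermitian, ?_, e⟩
  rw [isUnit_iff_ne_zero]
  intro h
  have := congrArg det e
  rw [det_mul, h, zero_mul] at this
  exact hM.det_pos.ne' this.symm

/-- The determinant grows when a positive semidefinite matrix is added. -/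
theorem norm_det_le_add {A P : Matrix ι ι ℂ} (hA : A.PosDef) (hP : P.PosSemidef) :
    ‖A.det‖ ≤ ‖(A + P).det‖ := by
  obtain ⟨B, hB, hu, rfl⟩ := exists_sqrt hA
  have hP' : (B⁻¹ * P * B⁻¹).PosSemidef := by
    have := hP.conjTranspose_mul_mul_same B⁻¹
    rwa [conjTranspose_nonsing_inv, hB.eq] at this
  have e : B * B + P = B * (1 + B⁻¹ * P * B⁻¹) * B := by
    simp only [Matrix.mul_add, Matrix.add_mul, Matrix.mul_one, mul_nonsing_inv_cancel_left _ _ hu,
      Matrix.mul_assoc, nonsing_inv_mul B hu]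
  rw [e, det_mul, det_mul, det_mul, norm_mul, norm_mul, norm_mul]
  calc ‖B.det‖ * ‖B.det‖ = ‖B.det‖ * 1 * ‖B.det‖ := by rw [mul_one]
    _ ≤ _ := by gcongr; exact one_le_norm_det_one_add hP'

/-- Hua's determinant inequality in the case `A = Z†`, `B = Z`. -/
theorem hua {Z : Matrix ι ι ℂ} (h2 : (1 - Z * Zᴴ).PosDef) :
    ‖(1 - Zᴴ * Z).det‖ ≤ ‖(1 - Z * Z).det‖ := by
  set R := 1 - Z * Zᴴ with hR
  have hu : IsUnit R.det := by rw [isUnit_iff_ne_zero]; exact h2.det_pos.ne'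
  set Q := R⁻¹ with hQ
  have qs : Q * (Z * Zᴴ) = Q - 1 := by
    have := nonsing_inv_mul R hu
    rw [← hQ, hR, Matrix.mul_sub, Matrix.mul_one, sub_eq_iff_eq_add] at this
    rw [eq_sub_iff_add_eq]; nth_rw 2 [this]; abel
  have sq' : (Z * Zᴴ) * Q = Q - 1 := by
    have := mul_nonsing_inv R hu
    rw [← hQ, hR, Matrix.sub_mul, Matrix.one_mul, sub_eq_iff_eq_add] at this
    rw [eq_sub_iff_add_eq]; nth_rw 2 [this]; abel
  have inv1 : (1 - Zᴴ * Z)⁻¹ = 1 + Zᴴ * Q * Z := by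
    apply inv_eq_right_inv
    calc (1 - Zᴴ * Z) * (1 + Zᴴ * Q * Z)
        = 1 - Zᴴ * Z + Zᴴ * Q * Z - Zᴴ * ((Z * Zᴴ) * Q) * Z := by noncomm_ring
      _ = 1 := by rw [sq']; noncomm_ring
  have key : (1 - Z * Z) * (1 - Zᴴ * Z)⁻¹ * (1 - Z * Z)ᴴ
      = R + (Zᴴ - Z)ᴴ * Q * (Zᴴ - Z) := by
    rw [inv1, conjTranspose_sub, conjTranspose_one, conjTranspose_mul, conjTranspose_sub,
      conjTranspose_conjTranspose]
    calc (1 - Z * Z) * (1 + Zᴴ * Q * Z) * (1 - Zᴴ * Zᴴ)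
        = (1 - Z * Z) * (1 - Zᴴ * Zᴴ) + Zᴴ * Q * Z - Zᴴ * (Q * (Z * Zᴴ)) * Zᴴ
            - Z * ((Z * Zᴴ) * Q) * Z + Z * (((Z * Zᴴ) * Q) * (Z * Zᴴ)) * Zᴴ := by noncomm_ring
      _ = (1 - Z * Z) * (1 - Zᴴ * Zᴴ) + Zᴴ * Q * Z - Zᴴ * (Q - 1) * Zᴴ
            - Z * (Q - 1) * Z + Z * (Q - 1 - Z * Zᴴ) * Zᴴ := by
          have e' : (Q - 1) * (Z * Zᴴ) = Q - 1 - Z * Zᴴ := by
            rw [Matrix.sub_mul, Matrix.one_mul, qs]
          rw [qs, sq', e']
      _ = _ := by rw [hR]; noncomm_ring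
  have hQp : ((Zᴴ - Z)ᴴ * Q * (Zᴴ - Z)).PosSemidef :=
    h2.inv.posSemidef.conjTranspose_mul_mul_same _
  have hd : (1 - Zᴴ * Z).det = R.det := det_one_sub_mul_comm _ _
  have h := norm_det_le_add h2 hQp
  rw [← key, det_mul, det_mul, det_nonsing_inv, Ring.inverse_eq_inv', norm_mul, norm_mul, norm_inv,
    det_conjTranspose, norm_star, hd] at h
  rw [hd]
  have hr := norm_det_pos h2
  rw [mul_comm, ← mul_assoc, ← div_eq_mul_inv, le_div_iff₀ hr] at h
  exact nonneg_le_nonneg_of_sq_le_sq (norm_nonneg _) h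

/-- Normalised midpoint inequality. -/
theorem det_midpoint_one {K E : Matrix ι ι ℂ} (hK : Kᴴ = -K) (h1 : (1 + E).PosDef)
    (h2 : (1 - E).PosDef) :
    ‖(1 + K).det‖ ^ 2 * (‖(1 + E).det‖ * ‖(1 - E).det‖) ≤
      ‖(1 + E + K).det‖ * ‖(1 - E + K).det‖ := by
  have hE : E.IsHermitian := by
    have := h1.isHermitian.eq
    rw [conjTranspose_add, conjTranspose_one] at this
    exact add_left_cancel this
  have hKK : ((1 + K)ᴴ * (1 + K)) = 1 + Kᴴ * K := by
    rw [conjTranspose_add, conjTranspose_one, hK]; noncomm_ring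
  have hKu : IsUnit (1 + K).det := by
    have hp : (1 + Kᴴ * K).PosDef := PosDef.one.add_posSemidef (posSemidef_conjTranspose_mul_self K)
    rw [← hKK] at hp
    have := hp.det_pos.ne'
    rw [det_mul, mul_ne_zero_iff] at this
    exact isUnit_iff_ne_zero.2 this.2
  set G := (1 + K)⁻¹ with hG
  set Z := G * E with hZ
  have hE2 : (1 - E * E).PosDef := by
    have a : ((1 - E) * (1 + E) * (1 - E)).PosSemidef := by
      have := h1.posSemidef.conjTranspose_mul_mul_same (1 - E)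
      rwa [h2.isHermitian.eq] at this
    have b : ((1 + E) * (1 - E) * (1 + E)).PosDef := by
      have hu : Function.Injective ((1 + E).mulVec) := mulVec_injective_of_isUnit h1.isUnit
      have := h2.conjTranspose_mul_mul_same hu
      rwa [h1.isHermitian.eq] at this
    have := (b.add_posSemidef a).smul (show (0 : ℂ) < 1 / 2 by norm_num)
    convert this using 1
    rw [show (1 + E) * (1 - E) * (1 + E) + (1 - E) * (1 + E) * (1 - E)
        = (2 : ℂ) • (1 - E * E) by rw [two_smul]; noncomm_ring]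
    rw [smul_smul]; norm_num
  have hGG : (1 - Gᴴ * G).PosSemidef := by
    have e : (1 + K) * (1 + K)ᴴ = 1 + Kᴴ * K := by
      rw [conjTranspose_add, conjTranspose_one, hK]; noncomm_ring
    have hGG' : Gᴴ * G = ((1 + K) * (1 + K)ᴴ)⁻¹ := by
      rw [Matrix.mul_inv_rev, conjTranspose_nonsing_inv]
    have hp : (1 + Kᴴ * K).PosDef := PosDef.one.add_posSemidef (posSemidef_conjTranspose_mul_self K)
    have hu : IsUnit (1 + Kᴴ * K).det := isUnit_iff_ne_zero.2 hp.det_pos.ne'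
    have hKG : 1 - Gᴴ * G = (K * G)ᴴ * (K * G) := by
      have h := nonsing_inv_mul (1 + K) hKu
      have h' := mul_nonsing_inv (1 + K) hKu
      rw [← hG] at h h'
      have h'' : Gᴴ * (1 + K)ᴴ = 1 := by rw [← conjTranspose_mul, h', conjTranspose_one]
      calc 1 - Gᴴ * G = Gᴴ * (1 + K)ᴴ * ((1 + K) * G) - Gᴴ * G := by rw [h'', h', one_mul]
        _ = Gᴴ * ((1 + K)ᴴ * (1 + K) - 1) * G := by noncomm_ring
        _ = _ := by rw [hKK, conjTranspose_mul]; noncomm_ring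
    rw [hKG]
    exact posSemidef_conjTranspose_mul_self _
  have hZZ : 1 - Zᴴ * Z = (1 - E * E) + Eᴴ * (1 - Gᴴ * G) * E := by
    rw [hZ, conjTranspose_mul, hE.eq]; noncomm_ring
  have hZ1 : (1 - Zᴴ * Z).PosDef := by
    rw [hZZ]; exact hE2.add_posSemidef (hGG.conjTranspose_mul_mul_same E)
  have hZ2 : (1 - Z * Zᴴ).PosDef := by
    have hu : IsUnit (1 - Zᴴ * Z).det := isUnit_iff_ne_zero.2 hZ1.det_pos.ne'
    set R := (1 - Zᴴ * Z)⁻¹
    have e : (1 - Z * Zᴴ)⁻¹ = 1 + Z * R * Zᴴ := by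
      apply inv_eq_right_inv
      calc (1 - Z * Zᴴ) * (1 + Z * R * Zᴴ)
          = 1 - Z * Zᴴ + Z * ((1 - Zᴴ * Z) * R) * Zᴴ := by noncomm_ring
        _ = 1 := by rw [mul_nonsing_inv _ hu]; noncomm_ring
    have hp : (1 + Z * R * Zᴴ).PosDef :=
      PosDef.one.add_posSemidef (hZ1.inv.posSemidef.mul_mul_conjTranspose_same Z)
    rw [← e] at hp
    exact posDef_inv_iff.1 hp
  have hineq : ‖(1 - E * E).det‖ ≤ ‖(1 - Z * Z).det‖ := by
    refine le_trans ?_ (hua hZ2)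
    rw [hZZ]
    exact norm_det_le_add hE2 (hGG.conjTranspose_mul_mul_same E)
  have h' := mul_nonsing_inv (1 + K) hKu
  rw [← hG] at h'
  have f1 : 1 + E + K = (1 + K) * (1 + Z) := by
    rw [hZ, Matrix.mul_add, ← Matrix.mul_assoc, h']; noncomm_ring
  have f2 : 1 - E + K = (1 + K) * (1 - Z) := by
    rw [hZ, Matrix.mul_sub, ← Matrix.mul_assoc, h']; noncomm_ring
  have f3 : (1 + Z).det * (1 - Z).det = (1 - Z * Z).det := by
    rw [← det_mul]; congr 1; noncomm_ring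
  have f4 : (1 + E).det * (1 - E).det = (1 - E * E).det := by
    rw [← det_mul]; congr 1; noncomm_ring
  rw [f1, f2, det_mul, det_mul, ← norm_mul, f4, ← norm_mul,
    show (1 + K).det * (1 + Z).det * ((1 + K).det * (1 - Z).det)
      = (1 + K).det ^ 2 * (1 - Z * Z).det by rw [← f3]; ring, norm_mul, norm_pow]
  exact mul_le_mul_of_nonneg_left hineq (by positivity)

/-- `log ‖det (D + K)‖ - log ‖det D‖`. -/
noncomputable def logRatio (K D : Matrix ι ι ℂ) : ℝ :=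
  Real.log ‖(D + K).det‖ - Real.log ‖D.det‖

theorem norm_det_add_antiHermitian_pos {K D : Matrix ι ι ℂ} (hK : Kᴴ = -K) (hD : D.PosDef) :
    0 < ‖(D + K).det‖ := by
  rw [norm_pos_iff]
  intro h
  obtain ⟨v, hv0, hv⟩ := exists_mulVec_eq_zero_iff.2 h
  have h1 : star v ⬝ᵥ D *ᵥ v + star v ⬝ᵥ K *ᵥ v = 0 := by
    rw [← dotProduct_add, ← add_mulVec, hv, dotProduct_zero]
  have h2 : star (star v ⬝ᵥ K *ᵥ v) = -(star v ⬝ᵥ K *ᵥ v) := by
    conv_lhs => rw [star_dotProduct, star_star, star_mulVec, ← dotProduct_mulVec, hK,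
      neg_mulVec, dotProduct_neg]
  have h3 := hD.re_dotProduct_pos hv0
  have h4 := congrArg Complex.re h1
  have h5 := congrArg Complex.re h2
  simp only [Complex.star_def, Complex.conj_re, Complex.neg_re] at h5
  simp only [Complex.add_re, Complex.zero_re] at h4
  simp only [RCLike.re_to_complex] at h3
  linarith

/-- **Midpoint convexity** of `logRatio K` on positive definite matrices. -/
theorem logRatio_midpoint {K M E : Matrix ι ι ℂ} (hK : Kᴴ = -K) (h1 : (M + E).PosDef)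
    (h2 : (M - E).PosDef) :
    2 * logRatio K M ≤ logRatio K (M + E) + logRatio K (M - E) := by
  have hM : M.PosDef := by
    have := (h1.add h2).smul (show (0 : ℂ) < 1 / 2 by norm_num)
    convert this using 1
    rw [show M + E + (M - E) = (2 : ℂ) • M by rw [two_smul]; abel, smul_smul]
    norm_num
  have pK := fun {D : Matrix ι ι ℂ} (hD : D.PosDef) => norm_det_add_antiHermitian_pos hK hD
  obtain ⟨B, hB, hu, rfl⟩ := exists_sqrt hM
  have hBi : B⁻¹ᴴ = B⁻¹ := by rw [conjTranspose_nonsing_inv, hB.eq]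
  have hinj : Function.Injective (B⁻¹).mulVec :=
    mulVec_injective_of_isUnit ((isUnit_nonsing_inv_iff).2 ((isUnit_iff_isUnit_det B).2 hu))
  have e1 : B⁻¹ * (B * B) * B⁻¹ = 1 := by
    rw [← Matrix.mul_assoc B⁻¹, nonsing_inv_mul B hu, Matrix.one_mul, mul_nonsing_inv B hu]
  set K' := B⁻¹ * K * B⁻¹ with hK'
  set E' := B⁻¹ * E * B⁻¹ with hE'
  have hK'a : K'ᴴ = -K' := by
    rw [hK', conjTranspose_mul, conjTranspose_mul, hBi, hK]; noncomm_ring
  have p1 : (1 + E').PosDef := by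
    have := h1.conjTranspose_mul_mul_same hinj
    rwa [hBi, Matrix.mul_add, Matrix.add_mul, e1] at this
  have p2 : (1 - E').PosDef := by
    have := h2.conjTranspose_mul_mul_same hinj
    rwa [hBi, Matrix.mul_sub, Matrix.sub_mul, e1] at this
  have back : ∀ X : Matrix ι ι ℂ, B * (B⁻¹ * X * B⁻¹) * B = X := fun X => by
    simp only [Matrix.mul_assoc, nonsing_inv_mul B hu, Matrix.mul_one,
      mul_nonsing_inv_cancel_left _ _ hu]
  have cg : ∀ X : Matrix ι ι ℂ, ‖(B * X * B).det‖ = ‖B.det‖ * ‖B.det‖ * ‖X.det‖ := fun X => by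
    rw [det_mul, det_mul, norm_mul, norm_mul]; ring
  have r0 : B * B + K = B * (1 + K') * B := by
    rw [Matrix.mul_add, Matrix.add_mul, Matrix.mul_one, back]
  have r1 : B * B + E + K = B * (1 + E' + K') * B := by
    rw [Matrix.mul_add, Matrix.mul_add, Matrix.add_mul, Matrix.add_mul, Matrix.mul_one, back, back]
  have r2 : B * B - E + K = B * (1 - E' + K') * B := by
    rw [Matrix.mul_add, Matrix.mul_sub, Matrix.add_mul, Matrix.sub_mul, Matrix.mul_one, back, back]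
  have r3 : B * B + E = B * (1 + E') * B := by
    rw [Matrix.mul_add, Matrix.add_mul, Matrix.mul_one, back]
  have r4 : B * B - E = B * (1 - E') * B := by
    rw [Matrix.mul_sub, Matrix.sub_mul, Matrix.mul_one, back]
  have hb : 0 < ‖B.det‖ := norm_pos_iff.2 (isUnit_iff_ne_zero.1 hu)
  have key := det_midpoint_one hK'a p1 p2
  have q0 : 0 < ‖(B * B + K).det‖ := pK hM
  have q1 := pK h1
  have q2 := pK h2
  have q3 := norm_det_pos h1
  have q4 := norm_det_pos h2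
  have q5 := norm_det_pos hM
  have big : ‖(B * B + K).det‖ ^ 2 * (‖(B * B + E).det‖ * ‖(B * B - E).det‖) ≤
      ‖(B * B + E + K).det‖ * ‖(B * B - E + K).det‖ * ‖(B * B).det‖ ^ 2 := by
    rw [r0, r1, r2, r3, r4, cg, cg, cg, cg, cg, det_mul B B, norm_mul]
    nlinarith [mul_le_mul_of_nonneg_left key (pow_nonneg hb.le 8)]
  have := Real.log_le_log (by positivity) big
  rw [Real.log_mul (by positivity) (by positivity), Real.log_pow,
    Real.log_mul q3.ne' q4.ne', Real.log_mul (by positivity) (by positivity),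
    Real.log_mul q1.ne' q2.ne', Real.log_pow] at this
  unfold logRatio
  push_cast at this
  linarith

/-- The block matrix `[[P, aQ], [bQ, 0]]`. -/
noncomputable def dampN (a b : ℝ) (P Q : Matrix κ κ ℂ) : Matrix (κ ⊕ κ) (κ ⊕ κ) ℂ :=
  fromBlocks P ((a : ℂ) • Q) ((b : ℂ) • Q) 0

/-- The positive definite part `diag (V + t, W + t)`. -/
noncomputable def blockD (t : ℝ) (V W : Matrix κ κ ℂ) : Matrix (κ ⊕ κ) (κ ⊕ κ) ℂ :=
  fromBlocks (V + (t : ℂ) • 1) 0 0 (W + (t : ℂ) • 1)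

/-- `blockD` at `V = a² QQ†`, `W = b² Q†Q`. -/
noncomputable def dampD (a b t : ℝ) (Q : Matrix κ κ ℂ) : Matrix (κ ⊕ κ) (κ ⊕ κ) ℂ :=
  blockD t (((a ^ 2 : ℝ) : ℂ) • (Q * Qᴴ)) (((b ^ 2 : ℝ) : ℂ) • (Qᴴ * Q))

/-- The anti-Hermitian part `√t [[0, P], [-P†, 0]]`. -/
noncomputable def dampK (t : ℝ) (P : Matrix κ κ ℂ) : Matrix (κ ⊕ κ) (κ ⊕ κ) ℂ :=
  fromBlocks 0 ((Real.sqrt t : ℂ) • P) (-((Real.sqrt t : ℂ) • Pᴴ)) 0

omit [Fintype κ] [DecidableEq κ] in
theorem dampK_conjTranspose (t : ℝ) (P : Matrix κ κ ℂ) : (dampK t P)ᴴ = -dampK t P := by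
  simp [dampK, fromBlocks_conjTranspose, fromBlocks_neg]

theorem posDef_smul_gram_add {t : ℝ} (ht : 0 < t) (s : ℝ) (hs : 0 ≤ s) (A : Matrix κ κ ℂ) :
    ((s : ℂ) • (Aᴴ * A) + (t : ℂ) • (1 : Matrix κ κ ℂ)).PosDef :=
  PosDef.posSemidef_add ((posSemidef_conjTranspose_mul_self A).smul (by exact_mod_cast hs))
    (PosDef.one.smul (by exact_mod_cast ht))

/-- **The determinant identity.** -/
theorem det_add_dampN (a b : ℝ) {t : ℝ} (ht : 0 < t) (P Q : Matrix κ κ ℂ) :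
    (dampN a b P Q * (dampN a b P Q)ᴴ + (t : ℂ) • 1).det = (dampD a b t Q + dampK t P).det := by
  have hst : (Real.sqrt t : ℂ) * (Real.sqrt t : ℂ) = (t : ℂ) := by
    rw [← Complex.ofReal_mul, Real.mul_self_sqrt ht.le]
  set X := ((a ^ 2 : ℝ) : ℂ) • (Q * Qᴴ) + (t : ℂ) • (1 : Matrix κ κ ℂ) with hX
  set Y := ((b ^ 2 : ℝ) : ℂ) • (Qᴴ * Q) + (t : ℂ) • (1 : Matrix κ κ ℂ) with hY
  set Y' := ((b ^ 2 : ℝ) : ℂ) • (Q * Qᴴ) + (t : ℂ) • (1 : Matrix κ κ ℂ) with hY'
  have hYu : IsUnit Y.det :=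
    isUnit_iff_ne_zero.2 (posDef_smul_gram_add ht _ (sq_nonneg b) Q).det_pos.ne'
  have hY'u : IsUnit Y'.det := by
    have := posDef_smul_gram_add ht _ (sq_nonneg b) Qᴴ
    rw [conjTranspose_conjTranspose] at this
    exact isUnit_iff_ne_zero.2 this.det_pos.ne'
  have hYd : Y.det = Y'.det := by
    have htne : (t : ℂ) ≠ 0 := by exact_mod_cast ht.ne'
    have f : ∀ M : Matrix κ κ ℂ, ((b ^ 2 : ℝ) : ℂ) • M + (t : ℂ) • (1 : Matrix κ κ ℂ)
        = (t : ℂ) • (1 + (((b ^ 2 : ℝ) : ℂ) / (t : ℂ)) • M) := fun M => by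
      rw [smul_add, smul_smul, mul_div_cancel₀ _ htne, add_comm]
    rw [hY, hY', f, f, det_smul, det_smul, ← Matrix.smul_mul, det_one_add_mul_comm, Matrix.mul_smul]
  have hcomm : Qᴴ * Y'⁻¹ = Y⁻¹ * Qᴴ := by
    have h : Y * Qᴴ = Qᴴ * Y' := by
      simp only [hY, hY', Matrix.add_mul, Matrix.mul_add, Matrix.smul_mul, Matrix.mul_smul,
        Matrix.one_mul, Matrix.mul_one, Matrix.mul_assoc]
    calc Qᴴ * Y'⁻¹ = Y⁻¹ * (Y * Qᴴ) * Y'⁻¹ := by
          rw [← Matrix.mul_assoc Y⁻¹, nonsing_inv_mul Y hYu, Matrix.one_mul]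
      _ = Y⁻¹ * Qᴴ := by
          rw [h, ← Matrix.mul_assoc, Matrix.mul_assoc _ Y', mul_nonsing_inv Y' hY'u, Matrix.mul_one]
  let _ := invertibleOfIsUnitDet Y hYu
  let _ := invertibleOfIsUnitDet Y' hY'u
  have eR : (dampD a b t Q + dampK t P).det = Y.det * (X + (t : ℂ) • (P * Y⁻¹ * Pᴴ)).det := by
    simp only [dampD, blockD, dampK, fromBlocks_add, add_zero, zero_add]
    rw [det_fromBlocks₂₂, invOf_eq_nonsing_inv]
    congr 2
    simp only [Matrix.smul_mul, Matrix.mul_smul, Matrix.mul_neg, smul_smul, hst, sub_neg_eq_add, hX, hY]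
  have eL : (dampN a b P Q * (dampN a b P Q)ᴴ + (t : ℂ) • 1).det =
      Y'.det * (P * Pᴴ + X - ((b ^ 2 : ℝ) : ℂ) • (P * Qᴴ * Y'⁻¹ * (Q * Pᴴ))).det := by
    have e1 : (a : ℂ) * (a : ℂ) = ((a ^ 2 : ℝ) : ℂ) := by push_cast; ring
    have e2 : (b : ℂ) * (b : ℂ) = ((b ^ 2 : ℝ) : ℂ) := by push_cast; ring
    have : dampN a b P Q * (dampN a b P Q)ᴴ + (t : ℂ) • 1
        = fromBlocks (P * Pᴴ + X) ((b : ℂ) • (P * Qᴴ)) ((b : ℂ) • (Q * Pᴴ)) Y' := by
      simp only [dampN, fromBlocks_conjTranspose, fromBlocks_multiply, conjTranspose_smul,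
        Complex.star_def, Complex.conj_ofReal, conjTranspose_zero, Matrix.smul_mul, Matrix.mul_smul,
        smul_smul, e1, e2, Matrix.mul_zero, Matrix.zero_mul, add_zero, ← fromBlocks_one,
        fromBlocks_smul, smul_zero, fromBlocks_add, hX, hY', add_assoc]
    rw [this, det_fromBlocks₂₂, invOf_eq_nonsing_inv]
    congr 2
    simp only [Matrix.smul_mul, Matrix.mul_smul, smul_smul, e2]
  rw [eL, eR, hYd]
  congr 2
  have h := nonsing_inv_mul Y hYu
  rw [hY, Matrix.mul_add, Matrix.mul_smul, Matrix.mul_smul, Matrix.mul_one, ← hY] at h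
  have hsplit : ((b ^ 2 : ℝ) : ℂ) • (P * Qᴴ * Y'⁻¹ * (Q * Pᴴ))
      = P * (((b ^ 2 : ℝ) : ℂ) • (Y⁻¹ * (Qᴴ * Q))) * Pᴴ := by
    rw [Matrix.mul_assoc P Qᴴ, hcomm]
    simp only [Matrix.mul_smul, Matrix.smul_mul, Matrix.mul_assoc]
  rw [hsplit, eq_sub_of_add_eq h]
  simp only [Matrix.mul_sub, Matrix.sub_mul, Matrix.mul_one, Matrix.mul_smul, Matrix.smul_mul]
  abel

theorem posDef_blockD {t : ℝ} (ht : 0 < t) {V W : Matrix κ κ ℂ} (hV : V.PosSemidef)
    (hW : W.PosSemidef) : (blockD t V W).PosDef := by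
  have h : ∀ {U : Matrix κ κ ℂ}, U.PosSemidef → (U + (t : ℂ) • (1 : Matrix κ κ ℂ)).PosDef :=
    fun hU => PosDef.posSemidef_add hU (PosDef.one.smul (by exact_mod_cast ht))
  let _ := invertibleOfIsUnitDet _ (isUnit_iff_ne_zero.2 (h hV).det_pos.ne')
  have h0 := (PosDef.fromBlocks₁₁ (0 : Matrix κ κ ℂ) (W + (t : ℂ) • 1) (h hV)).2
    (by simpa using (h hW).posSemidef)
  rw [conjTranspose_zero] at h0
  refine h0.posDef_iff_det_ne_zero.2 ?_
  rw [det_fromBlocks_zero₂₁]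
  exact mul_ne_zero (h hV).det_pos.ne' (h hW).det_pos.ne'

/-- The `t`-slice of the one-step deficit as a function of the two diagonal blocks. -/
noncomputable def blockRatio (t : ℝ) (P V W : Matrix κ κ ℂ) : ℝ :=
  logRatio (dampK t P) (blockD t V W)

/-- **Joint midpoint convexity in the two diagonal blocks.** -/
theorem blockRatio_midpoint {t : ℝ} (ht : 0 < t) (P : Matrix κ κ ℂ) {V₁ V₂ W₁ W₂ : Matrix κ κ ℂ}
    (hV₁ : V₁.PosSemidef) (hV₂ : V₂.PosSemidef) (hW₁ : W₁.PosSemidef) (hW₂ : W₂.PosSemidef) :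
    2 * blockRatio t P ((1 / 2 : ℂ) • (V₁ + V₂)) ((1 / 2 : ℂ) • (W₁ + W₂)) ≤
      blockRatio t P V₁ W₁ + blockRatio t P V₂ W₂ := by
  set V := (1 / 2 : ℂ) • (V₁ + V₂) with hV
  set W := (1 / 2 : ℂ) • (W₁ + W₂) with hW
  set E := fromBlocks (V₁ - V) 0 0 (W₁ - W) with hE
  have e1 : blockD t V W + E = blockD t V₁ W₁ := by
    simp only [blockD, hE, fromBlocks_add, add_zero]
    congr 1 <;> abel
  have e2 : blockD t V W - E = blockD t V₂ W₂ := by
    simp only [blockD, hE, sub_eq_add_neg, fromBlocks_neg, fromBlocks_add, neg_zero, add_zero]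
    congr 1
    · rw [hV]; module
    · rw [hW]; module
  have := logRatio_midpoint (dampK_conjTranspose t P) (e1 ▸ posDef_blockD ht hV₁ hW₁)
    (e2 ▸ posDef_blockD ht hV₂ hW₂)
  rw [e1, e2] at this
  exact this

/-- The logarithmic form of the determinant identity, normalised at `t = ∞`. -/
theorem log_det_one_add_dampN (a b : ℝ) {t : ℝ} (ht : 0 < t) (P Q : Matrix κ κ ℂ) :
    Real.log ‖(1 + (t : ℂ)⁻¹ • (dampN a b P Q * (dampN a b P Q)ᴴ)).det‖ =
      Real.log ‖(1 + (t : ℂ)⁻¹ • (((a ^ 2 : ℝ) : ℂ) • (Q * Qᴴ))).det‖ +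
      Real.log ‖(1 + (t : ℂ)⁻¹ • (((b ^ 2 : ℝ) : ℂ) • (Qᴴ * Q))).det‖ +
      blockRatio t P (((a ^ 2 : ℝ) : ℂ) • (Q * Qᴴ)) (((b ^ 2 : ℝ) : ℂ) • (Qᴴ * Q)) := by
  have htne : (t : ℂ) ≠ 0 := by exact_mod_cast ht.ne'
  have hc : 0 < ‖(t : ℂ)‖ := norm_pos_iff.2 htne
  set V := ((a ^ 2 : ℝ) : ℂ) • (Q * Qᴴ) with hVdef
  set W := ((b ^ 2 : ℝ) : ℂ) • (Qᴴ * Q) with hWdef
  have hV : V.PosSemidef := (posSemidef_self_mul_conjTranspose Q).smul (by exact_mod_cast sq_nonneg a)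
  have hW : W.PosSemidef := (posSemidef_conjTranspose_mul_self Q).smul (by exact_mod_cast sq_nonneg b)
  have hVd : (V + (t : ℂ) • (1 : Matrix κ κ ℂ)).PosDef :=
    PosDef.posSemidef_add hV (PosDef.one.smul (by exact_mod_cast ht))
  have hWd : (W + (t : ℂ) • (1 : Matrix κ κ ℂ)).PosDef :=
    PosDef.posSemidef_add hW (PosDef.one.smul (by exact_mod_cast ht))
  have f : ∀ {ι' : Type _} [Fintype ι'] [DecidableEq ι'] (M : Matrix ι' ι' ℂ),
      M + (t : ℂ) • (1 : Matrix ι' ι' ℂ) = (t : ℂ) • (1 + (t : ℂ)⁻¹ • M) := by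
    intro ι' _ _ M
    rw [smul_add, smul_smul, mul_inv_cancel₀ htne, one_smul, add_comm]
  have g : ∀ {ι' : Type _} [Fintype ι'] [DecidableEq ι'] (M : Matrix ι' ι' ℂ),
      0 < ‖(M + (t : ℂ) • (1 : Matrix ι' ι' ℂ)).det‖ →
      Real.log ‖(M + (t : ℂ) • (1 : Matrix ι' ι' ℂ)).det‖ =
        Fintype.card ι' * Real.log ‖(t : ℂ)‖ + Real.log ‖(1 + (t : ℂ)⁻¹ • M).det‖ := by
    intro ι' _ _ M hM
    rw [f, det_smul, norm_mul, norm_pow] at hM ⊢
    rw [Real.log_mul (by positivity) (right_ne_zero_of_mul hM.ne'), Real.log_pow]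
  set N := dampN a b P Q with hN
  have hNd : 0 < ‖(N * Nᴴ + (t : ℂ) • 1).det‖ :=
    norm_det_pos (PosDef.posSemidef_add (posSemidef_self_mul_conjTranspose N)
      (PosDef.one.smul (by exact_mod_cast ht)))
  have h1 := g _ hNd
  have h2 := g _ (norm_det_pos hVd)
  have h3 := g _ (norm_det_pos hWd)
  rw [hN, det_add_dampN a b ht P Q, ← hN, Fintype.card_sum] at h1
  have hD : Real.log ‖(blockD t V W).det‖ =
      Real.log ‖(V + (t : ℂ) • 1).det‖ + Real.log ‖(W + (t : ℂ) • 1).det‖ := by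
    rw [blockD, det_fromBlocks_zero₂₁, norm_mul,
      Real.log_mul (norm_det_pos hVd).ne' (norm_det_pos hWd).ne']
  simp only [blockRatio, logRatio, hD]
  simp only [dampD, ← hVdef, ← hWdef] at h1
  push_cast at h1
  linarith

end Vale.Agent.P358
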