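import Mathlib.Analysis.InnerProductSpace.PiL2
import Mathlib.Analysis.Matrix.Spectrum
import Mathlib.Analysis.Matrix.PosDef
import Mathlib.LinearAlgebra.UnitaryGroup

/-!
# Singular value decomposition of a square matrix
-/

namespace Vale.Agent.P358

open Matrix
open scoped ComplexOrder

variable {m : Type*} [Fintype m] [DecidableEq m]

theorem exists_diag_form (P : Matrix m m ℂ) :
    ∃ L R : Matrix m m ℂ, L ∈ unitary (Matrix m m ℂ) ∧ R ∈ unitary (Matrix m m ℂ) ∧
      ∃ σ : m → ℝ, (∀ i, 0 ≤ σ i) ∧ L * P * R = diagonal (fun i => (σ i : ℂ)) := by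
  classical
  have hH : (Pᴴ * P).IsHermitian := (posSemidef_conjTranspose_mul_self P).1
  have hd : ∀ i, 0 ≤ hH.eigenvalues i :=
    (posSemidef_conjTranspose_mul_self P).eigenvalues_nonneg
  set R : Matrix m m ℂ := (hH.eigenvectorUnitary : Matrix m m ℂ) with hR
  have hRu : R ∈ unitary (Matrix m m ℂ) := hH.eigenvectorUnitary.2
  set A := P * R with hA
  set d := hH.eigenvalues
  set σ : m → ℝ := fun i => Real.sqrt (d i) with hσ
  have hAA : Aᴴ * A = diagonal (fun i => (d i : ℂ)) := by
    have h := hH.conjStarAlgAut_star_eigenvectorUnitary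
    rw [Unitary.conjStarAlgAut_star_apply] at h
    rw [hA, conjTranspose_mul, ← star_eq_conjTranspose R, Matrix.mul_assoc,
      ← Matrix.mul_assoc Pᴴ, ← Matrix.mul_assoc]
    exact h
  let col : m → EuclideanSpace ℂ m := fun j => WithLp.toLp 2 (fun i => A i j)
  let v : m → EuclideanSpace ℂ m := fun j => ((σ j : ℂ))⁻¹ • col j
  let s : Set m := {j | σ j ≠ 0}
  have hin : ∀ i j, inner ℂ (col i) (col j) = (Aᴴ * A) i j := by
    intro i j
    simp [col, PiLp.inner_apply, Matrix.mul_apply, mul_comm]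
  have hv : Orthonormal ℂ (s.domRestrict v) := by
    rw [orthonormal_iff_ite]
    rintro ⟨i, hi⟩ ⟨j, hj⟩
    simp only [Set.domRestrict_apply, v, inner_smul_left, inner_smul_right, hin, hAA,
      Subtype.mk.injEq, map_inv₀, Complex.conj_ofReal]
    by_cases h : i = j
    · subst h
      have hsq : (d i : ℂ) = (σ i : ℂ) * (σ i : ℂ) := by
        rw [← Complex.ofReal_mul, hσ, Real.mul_self_sqrt (hd i)]
      have hne : (σ i : ℂ) ≠ 0 := Complex.ofReal_ne_zero.mpr hi
      rw [diagonal_apply_eq, if_pos rfl, hsq]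
      field_simp
    · simp [h]
  obtain ⟨b, hb⟩ := hv.exists_orthonormalBasis_extension_of_card_eq (finrank_euclideanSpace)
  let Qb : Matrix m m ℂ := Matrix.of fun i j => b j i
  have hQ : Qbᴴ * Qb = 1 := by
    ext i j
    have := orthonormal_iff_ite.mp b.orthonormal i j
    rw [PiLp.inner_apply] at this
    simpa [Qb, Matrix.mul_apply, Matrix.one_apply, mul_comm] using this
  have hA2 : A = Qb * diagonal (fun i => (σ i : ℂ)) := by
    ext i j
    rw [Matrix.mul_diagonal]
    by_cases hj : σ j = 0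
    · have h0 : inner ℂ (col j) (col j) = (0 : ℂ) := by
        rw [hin, hAA, diagonal_apply_eq]
        have : d j = 0 := (Real.sqrt_eq_zero (hd j)).mp hj
        simp [this]
      rw [inner_self_eq_zero] at h0
      have : A i j = 0 := by simpa [col] using congrArg (fun x : EuclideanSpace ℂ m => x i) h0
      simp [this, hj]
    · have h := congrArg (fun x : EuclideanSpace ℂ m => x i) (hb j hj)
      have hne : (σ j : ℂ) ≠ 0 := Complex.ofReal_ne_zero.mpr hj
      simp only [v, col, PiLp.smul_apply, smul_eq_mul] at h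
      change A i j = b j i * _
      rw [h]
      field_simp
  refine ⟨Qbᴴ, R, ?_, hRu, σ, fun i => Real.sqrt_nonneg _, ?_⟩
  · rw [Unitary.mem_iff, star_eq_conjTranspose, conjTranspose_conjTranspose]
    exact ⟨mul_eq_one_comm.mp hQ, hQ⟩
  · rw [Matrix.mul_assoc, ← hA, hA2, ← Matrix.mul_assoc, hQ, Matrix.one_mul]

end Vale.Agent.P358
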