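import Mathlib
import Vale.Agent.P358.LogDet
import Vale.Agent.P358.Entropy
import Vale.Agent.P358.ScalarBlock
import Vale.Agent.P358.Svd
import Vale.Agent.P358.Induction

/-!
# P358: the one-step entropy bound for amplitude damping
-/

namespace Vale.Agent.P358

open Matrix Real Finset
open scoped ComplexOrder

variable {κ : Type} [Fintype κ] [DecidableEq κ]

theorem blockRatio_conj (t : ℝ) {L R : Matrix κ κ ℂ} (hL : L ∈ unitary (Matrix κ κ ℂ))
    (hR : R ∈ unitary (Matrix κ κ ℂ)) (P V W : Matrix κ κ ℂ) :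
    blockRatio t (L * P * R) (L * V * Lᴴ) (Rᴴ * W * R) = blockRatio t P V W := by
  have hL2 : L * Lᴴ = 1 := Unitary.mul_star_self_of_mem hL
  have hR1 : Rᴴ * R = 1 := Unitary.star_mul_self_of_mem hR
  set U : Matrix (κ ⊕ κ) (κ ⊕ κ) ℂ := fromBlocks L 0 0 Rᴴ with hU
  have hUU : U * Uᴴ = 1 := by
    simp [hU, fromBlocks_conjTranspose, fromBlocks_multiply, hL2, hR1, fromBlocks_one]
  have eD : blockD t (L * V * Lᴴ) (Rᴴ * W * R) = U * blockD t V W * Uᴴ := by
    simp [blockD, hU, fromBlocks_conjTranspose, fromBlocks_multiply, Matrix.mul_add, Matrix.add_mul,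
      hL2, hR1]
  have eK : dampK t (L * P * R) = U * dampK t P * Uᴴ := by
    simp [dampK, hU, fromBlocks_conjTranspose, fromBlocks_multiply, Matrix.mul_assoc]
  have hdet : ∀ X : Matrix (κ ⊕ κ) (κ ⊕ κ) ℂ, (U * X * Uᴴ).det = X.det := fun X => by
    rw [det_mul_right_comm, hUU, Matrix.one_mul]
  simp only [blockRatio, logRatio, eD, eK, ← Matrix.add_mul, ← Matrix.mul_add, hdet]

/-- The diagonal sign matrix flipping coordinate `i`. -/
noncomputable def flipSign (i : κ) : Matrix κ κ ℂ :=
  diagonal fun a => if a = i then (-1 : ℂ) else 1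

omit [Fintype κ] in
theorem flipSign_conjTranspose (i : κ) : (flipSign i)ᴴ = flipSign i := by
  rw [flipSign, diagonal_conjTranspose]
  congr 1
  funext a
  rcases eq_or_ne a i with h | h <;> simp [h]

theorem flipSign_unitary (i : κ) : flipSign i ∈ unitary (Matrix κ κ ℂ) := by
  have h : flipSign i * flipSign i = 1 := by
    rw [flipSign, diagonal_mul_diagonal, ← diagonal_one]
    congr 1
    funext a
    rcases eq_or_ne a i with h | h <;> simp [h]
  rw [Unitary.mem_iff, star_eq_conjTranspose, flipSign_conjTranspose]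
  exact ⟨h, h⟩

/-- Average of a matrix with its sign flip at `i`. -/
noncomputable def pinchAt (i : κ) (V : Matrix κ κ ℂ) : Matrix κ κ ℂ :=
  (1 / 2 : ℂ) • (V + flipSign i * V * flipSign i)

theorem pinchAt_posSemidef (i : κ) {V : Matrix κ κ ℂ} (hV : V.PosSemidef) :
    (pinchAt i V).PosSemidef := by
  have h := hV.conjTranspose_mul_mul_same (flipSign i)
  rw [flipSign_conjTranspose] at h
  exact (hV.add h).smul (by simp)

theorem blockRatio_pinchAt {t : ℝ} (ht : 0 < t) (σ : κ → ℝ) (i : κ) {V W : Matrix κ κ ℂ}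
    (hV : V.PosSemidef) (hW : W.PosSemidef) :
    blockRatio t (diagonal fun a => (σ a : ℂ)) (pinchAt i V) (pinchAt i W) ≤
      blockRatio t (diagonal fun a => (σ a : ℂ)) V W := by
  have hF := flipSign_conjTranspose i
  have hc := blockRatio_conj t (flipSign_unitary i) (flipSign_unitary i)
    (diagonal fun a => (σ a : ℂ)) V W
  have hP : flipSign i * diagonal (fun a => (σ a : ℂ)) * flipSign i =
      diagonal fun a => (σ a : ℂ) := by
    rw [flipSign, diagonal_mul_diagonal, diagonal_mul_diagonal]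
    congr 1
    funext a
    rcases eq_or_ne a i with h | h <;> simp [h]
  rw [hP, hF] at hc
  have hV' := hV.conjTranspose_mul_mul_same (flipSign i)
  have hW' := hW.conjTranspose_mul_mul_same (flipSign i)
  rw [hF] at hV' hW'
  have h := blockRatio_midpoint ht (diagonal fun a => (σ a : ℂ)) hV hV' hW hW'
  rw [hc] at h
  unfold pinchAt
  linarith

/-- Remove the off-diagonal entries in the rows and columns of `s`. -/
noncomputable def offKill (s : Finset κ) (V : Matrix κ κ ℂ) : Matrix κ κ ℂ :=
  Matrix.of fun a b => if a ≠ b ∧ (a ∈ s ∨ b ∈ s) then 0 else V a b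

omit [Fintype κ] in
theorem offKill_empty (V : Matrix κ κ ℂ) : offKill ∅ V = V := by
  ext a b; simp [offKill]

theorem offKill_insert (i : κ) (s : Finset κ) (V : Matrix κ κ ℂ) :
    offKill (insert i s) V = pinchAt i (offKill s V) := by
  ext a b
  simp only [pinchAt, flipSign, Matrix.smul_apply, Matrix.add_apply, diagonal_mul, mul_diagonal,
    smul_eq_mul, offKill, Matrix.of_apply, Finset.mem_insert]
  by_cases hab : a = b
  · subst hab
    rcases eq_or_ne a i with h | h <;> simp [h] <;> ring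
  · by_cases ha : a = i
    · subst ha
      have hb : b ≠ a := fun h => hab h.symm
      simp [hab, hb]
      split_ifs <;> ring
    · by_cases hb : b = i
      · subst hb
        simp [hab]
      · simp [ha, hb]
        split_ifs <;> ring

theorem offKill_spec {t : ℝ} (ht : 0 < t) (σ : κ → ℝ) {V W : Matrix κ κ ℂ} (hV : V.PosSemidef)
    (hW : W.PosSemidef) (s : Finset κ) :
    (offKill s V).PosSemidef ∧ (offKill s W).PosSemidef ∧
      blockRatio t (diagonal fun a => (σ a : ℂ)) (offKill s V) (offKill s W) ≤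
        blockRatio t (diagonal fun a => (σ a : ℂ)) V W := by
  induction s using Finset.induction_on with
  | empty => simp [offKill_empty, hV, hW]
  | @insert i s _ ih =>
    rw [offKill_insert, offKill_insert]
    exact ⟨pinchAt_posSemidef i ih.1, pinchAt_posSemidef i ih.2.1,
      (blockRatio_pinchAt ht σ i ih.1 ih.2.1).trans ih.2.2⟩

theorem blockRatio_diagonal {t : ℝ} (ht : 0 < t) (σ v w : κ → ℝ) (hv : ∀ i, 0 ≤ v i)
    (hw : ∀ i, 0 ≤ w i) :
    blockRatio t (diagonal fun a => (σ a : ℂ)) (diagonal fun a => (v a : ℂ))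
        (diagonal fun a => (w a : ℂ)) = ∑ i, lineTerm t (σ i ^ 2) (v i) (w i) := by
  have hV : ∀ u : κ → ℝ, diagonal (fun a => (u a : ℂ)) + (t : ℂ) • (1 : Matrix κ κ ℂ) =
      diagonal fun a => ((u a + t : ℝ) : ℂ) := fun u => by
    rw [← diagonal_one, ← diagonal_smul, diagonal_add]
    congr 1; funext a; simp
  have hwp : ∀ i, 0 < w i + t := fun i => by linarith [hw i]
  have hvp : ∀ i, 0 < v i + t := fun i => by linarith [hv i]
  let _ : Invertible (diagonal fun a => ((w a + t : ℝ) : ℂ)) := invertibleOfIsUnitDet _ (by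
    rw [det_diagonal, isUnit_iff_ne_zero, Finset.prod_ne_zero_iff]
    exact fun i _ => Complex.ofReal_ne_zero.mpr (hwp i).ne')
  have hinv : ⅟(diagonal fun a => ((w a + t : ℝ) : ℂ)) =
      diagonal fun a => (((w a + t)⁻¹ : ℝ) : ℂ) := by
    refine invOf_eq_right_inv ?_
    rw [diagonal_mul_diagonal, ← diagonal_one]
    congr 1; funext a
    rw [← Complex.ofReal_mul, mul_inv_cancel₀ (hwp a).ne', Complex.ofReal_one]
  have hst := Real.mul_self_sqrt ht.le
  have hK : (blockD t (diagonal fun a => (v a : ℂ)) (diagonal fun a => (w a : ℂ)) +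
      dampK t (diagonal fun a => (σ a : ℂ))).det =
      ((∏ i, ((w i + t) * (v i + t + t * σ i ^ 2 / (w i + t))) : ℝ) : ℂ) := by
    simp only [blockD, dampK, fromBlocks_add, add_zero, zero_add, hV, diagonal_conjTranspose]
    rw [det_fromBlocks₂₂, hinv]
    simp only [← diagonal_smul, diagonal_neg, diagonal_mul_diagonal, diagonal_sub, det_diagonal]
    rw [← Finset.prod_mul_distrib, Complex.ofReal_prod]
    refine Finset.prod_congr rfl fun i _ => ?_
    simp only [Pi.smul_apply, Pi.star_apply, smul_eq_mul, Complex.star_def,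
      Complex.conj_ofReal]
    push_cast
    have : (Real.sqrt t : ℂ) * (Real.sqrt t : ℂ) = (t : ℂ) := by
      rw [← Complex.ofReal_mul, hst]
    linear_combination ((σ i : ℂ) ^ 2 * ((w i : ℂ) + t) * ((w i : ℂ) + t)⁻¹) * this
  have hD : (blockD t (diagonal fun a => (v a : ℂ)) (diagonal fun a => (w a : ℂ))).det =
      ((∏ i, ((v i + t) * (w i + t)) : ℝ) : ℂ) := by
    simp only [blockD, hV, det_fromBlocks_zero₂₁, det_diagonal]
    rw [← Finset.prod_mul_distrib, Complex.ofReal_prod]
    exact Finset.prod_congr rfl fun i _ => (Complex.ofReal_mul _ _).symm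
  have hp : ∀ i, 0 < (w i + t) * (v i + t + t * σ i ^ 2 / (w i + t)) := fun i => by
    have := hvp i; have := hwp i
    positivity
  simp only [blockRatio, logRatio, hK, hD, Complex.norm_real, Real.norm_eq_abs]
  rw [abs_of_pos (Finset.prod_pos fun i _ => hp i),
    abs_of_pos (Finset.prod_pos fun i _ => mul_pos (hvp i) (hwp i)),
    Real.log_prod fun i _ => (hp i).ne',
    Real.log_prod fun i _ => (mul_pos (hvp i) (hwp i)).ne', ← Finset.sum_sub_distrib]
  refine Finset.sum_congr rfl fun i _ => ?_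
  have h1 := hvp i; have h2 := hwp i
  rw [← Real.log_div (hp i).ne' (mul_pos h1 h2).ne', lineTerm]
  congr 1
  rw [show t + v i = v i + t by ring, show t + w i = w i + t by ring]
  field_simp

theorem lineTerm_eq_logs {t u v w : ℝ} (hu : 0 ≤ u) (hv : 0 ≤ v) (hw : 0 ≤ w) (ht : 0 < t) :
    lineTerm t u v w = log (t + lamP u v w) + log (t + lamM u v w) - log (t + v) - log (t + w) := by
  have hP := lamP_nonneg hu hv hw
  have hM := lamM_nonneg hu hv hw
  have h := lineTerm_eq_etaInt hu hv hw ht
  simp only [etaInt] at h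
  rw [show 1 + lamP u v w / t = (t + lamP u v w) / t by field_simp,
    show 1 + lamM u v w / t = (t + lamM u v w) / t by field_simp,
    show 1 + v / t = (t + v) / t by field_simp, show 1 + w / t = (t + w) / t by field_simp,
    log_div (by linarith) ht.ne', log_div (by linarith) ht.ne', log_div (by linarith) ht.ne',
    log_div (by linarith) ht.ne'] at h
  have hsum : lamP u v w + lamM u v w = u + v + w := by unfold lamP lamM; ring
  have hu' : u / (1 + t) = lamP u v w / (1 + t) + lamM u v w / (1 + t) - v / (1 + t) - w / (1 + t) := by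
    conv_lhs => rw [show u = lamP u v w + lamM u v w - v - w by linarith]
    ring
  linarith

theorem log_norm_det_add {ι : Type} [Fintype ι] [DecidableEq ι] {A : Matrix ι ι ℂ}
    (hA : A.PosSemidef) {t : ℝ} (ht : 0 < t) :
    log ‖(A + (t : ℂ) • 1).det‖ = ∑ i, log (t + hA.1.eigenvalues i) := by
  have hp : ∀ i, 0 < hA.1.eigenvalues i + t := fun i => by linarith [hA.eigenvalues_nonneg i]
  rw [det_add_smul_one hA.1, Complex.norm_real, Real.norm_eq_abs,
    abs_of_pos (Finset.prod_pos fun i _ => hp i), Real.log_prod fun i _ => (hp i).ne']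
  simp [add_comm]

/-- Comparison in block form: the scalar three-block functions bound the entropy excess. -/
theorem vN_damp_ge {a b : ℝ} (P Q : Matrix κ κ ℂ) (hab : a ^ 2 + b ^ 2 = 1) :
    threeFn (Ind.frob P) (a ^ 2 * Ind.frob Q) (b ^ 2 * Ind.frob Q) + vN (P * Pᴴ) +
        vN (Q * Qᴴ) + (negMulLog (a ^ 2) + negMulLog (b ^ 2)) * Ind.frob Q ≤
      vN (dampN a b P Q * (dampN a b P Q)ᴴ) := by
  obtain ⟨L, R, hL, hR, σ, -, hσ⟩ := exists_diag_form P
  set V := ((a ^ 2 : ℝ) : ℂ) • (Q * Qᴴ) with hVdef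
  set W := ((b ^ 2 : ℝ) : ℂ) • (Qᴴ * Q) with hWdef
  set O := dampN a b P Q * (dampN a b P Q)ᴴ with hOdef
  have hO : O.PosSemidef := posSemidef_self_mul_conjTranspose _
  have hV : V.PosSemidef :=
    (posSemidef_self_mul_conjTranspose Q).smul (by exact_mod_cast sq_nonneg a)
  have hW : W.PosSemidef :=
    (posSemidef_conjTranspose_mul_self Q).smul (by exact_mod_cast sq_nonneg b)
  set V' := L * V * Lᴴ with hV'def
  set W' := Rᴴ * W * R with hW'def
  have hV' : V'.PosSemidef := hV.mul_mul_conjTranspose_same L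
  have hW' : W'.PosSemidef := hW.conjTranspose_mul_mul_same R
  set u : κ → ℝ := fun i => σ i ^ 2 with hudef
  set v : κ → ℝ := fun i => (V' i i).re with hvdef
  set w : κ → ℝ := fun i => (W' i i).re with hwdef
  have hu : ∀ i, 0 ≤ u i := fun i => sq_nonneg _
  have hv : ∀ i, 0 ≤ v i := fun i => (Complex.le_def.1 (hV'.diag_nonneg (i := i))).1
  have hw : ∀ i, 0 ≤ w i := fun i => (Complex.le_def.1 (hW'.diag_nonneg (i := i))).1
  have hdiag : ∀ {X : Matrix κ κ ℂ}, X.PosSemidef →
      offKill Finset.univ X = diagonal fun i => ((X i i).re : ℂ) := by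
    intro X hX
    ext i j
    rcases eq_or_ne i j with rfl | h
    · have h0 := (Complex.le_def.1 (hX.diag_nonneg (i := i))).2
      simp only [offKill, Matrix.of_apply, ne_eq, not_true_eq_false, false_and, if_false,
        diagonal_apply_eq]
      exact Complex.ext (by simp) (by simpa using h0.symm)
    · simp [offKill, h]
  have key : ∀ t : ℝ, 0 < t →
      (∑ i, log (t + hV.1.eigenvalues i)) + (∑ i, log (t + hW.1.eigenvalues i)) +
          ∑ i, (log (t + lamP (u i) (v i) (w i)) + log (t + lamM (u i) (v i) (w i)) -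
            log (t + v i) - log (t + w i)) ≤
        ∑ i, log (t + hO.1.eigenvalues i) := by
    intro t ht
    have h1 : blockRatio t P V W ≥ ∑ i, lineTerm t (u i) (v i) (w i) := by
      have hc := blockRatio_conj t hL hR P V W
      rw [hσ] at hc
      obtain ⟨-, -, h3⟩ := offKill_spec ht σ hV' hW' Finset.univ
      rw [hdiag hV', hdiag hW'] at h3
      rw [← hc]
      refine le_trans (le_of_eq ?_) h3
      exact (blockRatio_diagonal ht σ v w hv hw).symm
    simp only [lineTerm_eq_logs (hu _) (hv _) (hw _) ht] at h1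
    have hpos : ∀ {X : Matrix κ κ ℂ}, X.PosSemidef → 0 < ‖(X + (t : ℂ) • 1).det‖ := fun hX =>
      norm_det_pos (PosDef.posSemidef_add hX (PosDef.one.smul (by exact_mod_cast ht)))
    have hD : (blockD t V W).det = (V + (t : ℂ) • 1).det * (W + (t : ℂ) • 1).det := by
      rw [blockD, det_fromBlocks_zero₂₁]
    have h2 : log ‖(O + (t : ℂ) • 1).det‖ =
        log ‖(V + (t : ℂ) • 1).det‖ + log ‖(W + (t : ℂ) • 1).det‖ + blockRatio t P V W := by
      rw [hOdef, det_add_dampN a b ht]
      simp only [dampD, ← hVdef, ← hWdef, blockRatio, logRatio, hD, norm_mul,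
        Real.log_mul (hpos hV).ne' (hpos hW).ne']
      ring
    rw [log_norm_det_add hO ht, log_norm_det_add hV ht, log_norm_det_add hW ht] at h2
    linarith
  have htrV : ∑ i, v i = a ^ 2 * Ind.frob Q := by
    have : V'.trace = V.trace := by
      rw [hV'def, trace_mul_cycle, show Lᴴ * L = 1 from Unitary.star_mul_self_of_mem hL,
        Matrix.one_mul]
    have h2 := congrArg Complex.re this
    rw [Matrix.trace, Complex.re_sum] at h2
    simp only [Matrix.diag_apply] at h2
    rw [hvdef, h2, hVdef, trace_smul, smul_eq_mul, Complex.re_ofReal_mul,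
      Ind.trace_mul_conjTranspose]
  have htrW : ∑ i, w i = b ^ 2 * Ind.frob Q := by
    have : W'.trace = W.trace := by
      rw [hW'def, trace_mul_cycle, show R * Rᴴ = 1 from Unitary.mul_star_self_of_mem hR,
        Matrix.one_mul]
    have h2 := congrArg Complex.re this
    rw [Matrix.trace, Complex.re_sum] at h2
    simp only [Matrix.diag_apply] at h2
    rw [hwdef, h2, hWdef, trace_smul, smul_eq_mul, Complex.re_ofReal_mul, trace_mul_comm,
      Ind.trace_mul_conjTranspose]
  have hPP : L * (P * Pᴴ) * Lᴴ = diagonal fun i => (u i : ℂ) := by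
    have e : L * (P * Pᴴ) * Lᴴ = (L * P * R) * (L * P * R)ᴴ := by
      simp only [conjTranspose_mul, Matrix.mul_assoc]
      rw [← Matrix.mul_assoc R Rᴴ, show R * Rᴴ = 1 from Unitary.mul_star_self_of_mem hR,
        Matrix.one_mul]
    rw [e, hσ, diagonal_conjTranspose, diagonal_mul_diagonal]
    congr 1; funext i; simp [hudef, pow_two]
  have hvP : vN (P * Pᴴ) = ∑ i, negMulLog (u i) := by
    rw [← vN_isometry_conj L (Unitary.star_mul_self_of_mem hL) (P * Pᴴ), hPP, vN_diagonal]
  have htrP : ∑ i, u i = Ind.frob P := by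
    have h : (L * (P * Pᴴ) * Lᴴ).trace = (P * Pᴴ).trace := by
      rw [trace_mul_cycle, show Lᴴ * L = 1 from Unitary.star_mul_self_of_mem hL, Matrix.one_mul]
    have h2 := congrArg Complex.re h
    rw [hPP, trace_diagonal, Complex.re_sum, Ind.trace_mul_conjTranspose] at h2
    simpa using h2
  have hsum : ∀ i, lamP (u i) (v i) (w i) + lamM (u i) (v i) (w i) = u i + v i + w i := fun i => by
    unfold lamP lamM; ring
  have htrO : ∑ i, hO.1.eigenvalues i =
      Ind.frob P + (a ^ 2 + b ^ 2) * Ind.frob Q := by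
    rw [sum_eigenvalues_eq_trace, hOdef, Ind.trace_mul_conjTranspose]
    simp only [dampN, Ind.frob, Fintype.sum_sum_type, fromBlocks_apply₁₁, fromBlocks_apply₁₂,
      fromBlocks_apply₂₁, fromBlocks_apply₂₂, Matrix.smul_apply, smul_eq_mul, Complex.normSq_mul,
      Complex.normSq_ofReal, Matrix.zero_apply, map_zero, sum_const_zero, add_zero,
      sum_add_distrib, ← mul_sum]
    ring
  let c : ((κ ⊕ κ) ⊕ (κ ⊕ κ)) ⊕ ((κ ⊕ κ) ⊕ (κ ⊕ κ)) → ℝ :=
    Sum.elim (Sum.elim (fun _ => 1) (fun _ => -1)) (Sum.elim (fun _ => -1) (fun _ => 1))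
  let A : ((κ ⊕ κ) ⊕ (κ ⊕ κ)) ⊕ ((κ ⊕ κ) ⊕ (κ ⊕ κ)) → ℝ :=
    Sum.elim (Sum.elim hO.1.eigenvalues (Sum.elim hV.1.eigenvalues hW.1.eigenvalues))
      (Sum.elim (Sum.elim (fun i => lamP (u i) (v i) (w i)) (fun i => lamM (u i) (v i) (w i)))
        (Sum.elim v w))
  have hV1 : ∑ i, hV.1.eigenvalues i = a ^ 2 * Ind.frob Q := by
    rw [sum_eigenvalues_eq_trace, hVdef, trace_smul, smul_eq_mul, Complex.re_ofReal_mul,
      Ind.trace_mul_conjTranspose]
  have hW1 : ∑ i, hW.1.eigenvalues i = b ^ 2 * Ind.frob Q := by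
    rw [sum_eigenvalues_eq_trace, hWdef, trace_smul, smul_eq_mul, Complex.re_ofReal_mul,
      trace_mul_comm, Ind.trace_mul_conjTranspose]
  have hlam : ∑ i, lamP (u i) (v i) (w i) + ∑ i, lamM (u i) (v i) (w i) =
      ∑ i, u i + ∑ i, v i + ∑ i, w i := by
    rw [← sum_add_distrib, ← sum_add_distrib, ← sum_add_distrib]
    exact sum_congr rfl fun i _ => hsum i
  have main := sum_negMulLog_nonneg c A
    (by
      rintro (((i | i) | (i | i)) | ((i | i) | (i | i)))
      · exact hO.eigenvalues_nonneg _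
      · exact hO.eigenvalues_nonneg _
      · exact hV.eigenvalues_nonneg _
      · exact hW.eigenvalues_nonneg _
      · exact lamP_nonneg (hu i) (hv i) (hw i)
      · exact lamM_nonneg (hu i) (hv i) (hw i)
      · exact hv i
      · exact hw i)
    (by simp [c, Fintype.sum_sum_type])
    (by
      simp only [c, A, Fintype.sum_sum_type, Sum.elim_inl, Sum.elim_inr, one_mul, neg_one_mul,
        sum_neg_distrib]
      simp only [Fintype.sum_sum_type] at htrO
      linarith)
    (fun t ht => by
      have h := key t ht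
      simp only [sum_sub_distrib, sum_add_distrib, Fintype.sum_sum_type] at h
      simp only [c, A, Fintype.sum_sum_type, Sum.elim_inl, Sum.elim_inr, one_mul, neg_one_mul,
        sum_neg_distrib]
      linarith)
  simp only [c, A, Fintype.sum_sum_type, Sum.elim_inl, Sum.elim_inr, one_mul, neg_one_mul,
    sum_neg_distrib] at main
  have hvO : vN O = ∑ i, negMulLog (hO.1.eigenvalues i) := by rw [vN, dif_pos hO.1]
  have hvV : vN V = ∑ i, negMulLog (hV.1.eigenvalues i) := by rw [vN, dif_pos hV.1]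
  have hvW : vN W = ∑ i, negMulLog (hW.1.eigenvalues i) := by rw [vN, dif_pos hW.1]
  rw [Fintype.sum_sum_type] at hvO
  have hsV : vN V = a ^ 2 * vN (Q * Qᴴ) + negMulLog (a ^ 2) * Ind.frob Q := by
    rw [hVdef, vN_smul (posSemidef_self_mul_conjTranspose Q) (sq_nonneg a),
      Ind.trace_mul_conjTranspose]
  have hsW : vN W = b ^ 2 * vN (Q * Qᴴ) + negMulLog (b ^ 2) * Ind.frob Q := by
    rw [hWdef, vN_smul (posSemidef_conjTranspose_mul_self Q) (sq_nonneg b),
      vN_mul_conjTranspose_comm, trace_mul_comm, Ind.trace_mul_conjTranspose]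
  have hb := threeFn_sum Finset.univ u v w hu hv hw
  rw [htrP, htrV, htrW] at hb
  simp only [threeFn, sum_sub_distrib, sum_add_distrib] at hb
  have hQ : vN (Q * Qᴴ) = a ^ 2 * vN (Q * Qᴴ) + b ^ 2 * vN (Q * Qᴴ) := by
    rw [← add_mul, hab, one_mul]
  simp only [threeFn]
  linarith

/-- Entropy of the output of a pure qubit input with excited population `x`. -/
noncomputable def stepFn (g x : ℝ) : ℝ :=
  negMulLog (lamP (1 - x) (g * x) ((1 - g) * x)) + negMulLog (lamM (1 - x) (g * x) ((1 - g) * x))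

/-- The one-step bound. -/
theorem oneStep_vN {g : ℝ} (hg0 : 0 ≤ g) (hg1 : g ≤ 1) :
    Ind.OneStep (fun _ _ _ => vN) (stepFn g) g := by
  intro n P Q N hN
  have hs : Real.sqrt g ^ 2 = g := Real.sq_sqrt hg0
  have hs' : Real.sqrt (1 - g) ^ 2 = 1 - g := Real.sq_sqrt (sub_nonneg.mpr hg1)
  have h := vN_damp_ge (a := Real.sqrt g) (b := Real.sqrt (1 - g)) P Q (by rw [hs, hs']; ring)
  rw [hs, hs'] at h
  rw [hN]
  refine le_trans (le_of_eq ?_) h
  set a := Ind.frob P
  set b := Ind.frob Q
  have ha : 0 ≤ a := sum_nonneg fun _ _ => sum_nonneg fun _ _ => Complex.normSq_nonneg _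
  have hb : 0 ≤ b := sum_nonneg fun _ _ => sum_nonneg fun _ _ => Complex.normSq_nonneg _
  rcases eq_or_ne (a + b) 0 with h0 | h0
  · have h1 : a = 0 := by linarith
    have h2 : b = 0 := by linarith
    simp [h1, h2, threeFn_zero le_rfl le_rfl]
  · set x := b / (a + b)
    have e1 : (a + b) * (1 - x) = a := by rw [mul_sub, mul_div_cancel₀ b h0]; ring
    have e2 : (a + b) * x = b := mul_div_cancel₀ b h0
    have hsm := threeFn_smul (add_nonneg ha hb) (1 - x) (g * x) ((1 - g) * x)
    rw [e1, mul_left_comm (a + b) g x, mul_left_comm (a + b) (1 - g) x, e2] at hsm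
    rw [hsm, threeFn, stepFn]
    have n1 : negMulLog a =
        (1 - x) * negMulLog (a + b) + (a + b) * negMulLog (1 - x) := by
      conv_lhs => rw [← e1]
      exact negMulLog_mul _ _
    have n2 : negMulLog b = x * negMulLog (a + b) + (a + b) * negMulLog x := by
      conv_lhs => rw [← e2]
      exact negMulLog_mul _ _
    rw [n1, n2, negMulLog_mul g x, negMulLog_mul (1 - g) x]
    linear_combination (negMulLog g + negMulLog (1 - g)) * e2

end Vale.Agent.P358
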