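import Vale.Agent.P358.Upper
import Vale.Agent.P358.Achieve
import Vale.Agent.P358.OneStep
import Vale.Agent.P358.PureFn

/-!
P358: the classical capacity of amplitude damping equals the one-parameter Holevo formula.
-/

namespace Vale.Agent.P358

open Matrix Real
open scoped ComplexOrder

lemma pop_mem {n : ℕ} {ρ : Matrix (Bits n) (Bits n) ℂ} (hρ : IsState ρ) (i : Fin n) :
    Ind.pop i ρ ∈ Set.Icc (0 : ℝ) 1 := by
  have h0 : ∀ x, 0 ≤ (ρ x x).re := fun x => (Complex.le_def.1 hρ.1.diag_nonneg).1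
  have h1 : ∑ x, (ρ x x).re = 1 := by rw [← Ind.trace_eq_sum_re, hρ.2]; rfl
  refine ⟨Finset.sum_nonneg fun x _ => by split <;> simp [h0], h1 ▸ ?_⟩
  exact Finset.sum_le_sum fun x _ => by split <;> simp [h0]

/-- The Holevo capacity of every tensor power of amplitude damping. -/
theorem holevoValues_isLUB {g : ℝ} (hg0 : 0 ≤ g) (hg1 : g ≤ 1) (n : ℕ) :
    IsLUB (holevoValues (gadc g 0) n) (n * adFormula g) := by
  set F : ℝ → ℝ := fun q => binEntropy ((1 - g) * q) / Real.log 2 - pureOut g q with hF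
  have hcont : Continuous F := by
    simp only [hF, pureOut]; fun_prop
  obtain ⟨q₀, hq₀, hmax⟩ := isCompact_Icc.exists_isMaxOn (Set.nonempty_Icc.mpr zero_le_one)
    hcont.continuousOn
  have hM : adFormula g = F q₀ :=
    IsGreatest.csSup_eq ⟨⟨q₀, hq₀, rfl⟩, by rintro _ ⟨q, hq, rfl⟩; exact hmax hq⟩
  have hl : 0 < Real.log 2 := Real.log_pos one_lt_two
  have hL : Ind.OneStep (fun I _ _ => vN (ι := I)) (pureNat g) g := by
    have h := oneStep_vN hg0 hg1
    rwa [show stepFn g = pureNat g from funext fun x => (pureNat_eq_lam g x).symm] at h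
  refine ⟨?_, fun b hb => ?_⟩
  · rintro r ⟨m, w, ρ, hw, hw1, hρ, rfl⟩
    have h := Ind.holevo_pureNat hg0 hg1 hL w ρ hw hw1 hρ
    have hsite : ∀ i : Fin n, binEntropy ((1 - g) * ∑ a, w a * Ind.pop i (ρ a))
        - pureNat g (∑ a, w a * Ind.pop i (ρ a)) ≤ adFormula g * Real.log 2 := by
      intro i
      set q := ∑ a, w a * Ind.pop i (ρ a)
      have hq : q ∈ Set.Icc (0 : ℝ) 1 := by
        refine ⟨Finset.sum_nonneg fun a _ => mul_nonneg (hw a) (pop_mem (hρ a) i).1, hw1 ▸ ?_⟩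
        exact Finset.sum_le_sum fun a _ => mul_le_of_le_one_right (hw a) (pop_mem (hρ a) i).2
      have h2 := mul_le_mul_of_nonneg_right ((hmax hq).trans hM.ge) hl.le
      simp only [hF, pureOut] at h2
      rw [sub_mul, div_mul_cancel₀ _ hl.ne', div_mul_cancel₀ _ hl.ne'] at h2
      exact h2
    have h3 := h.trans (Finset.sum_le_sum fun i _ => hsite i)
    rw [Finset.sum_const, Finset.card_univ, Fintype.card_fin, nsmul_eq_mul] at h3
    simp only [entropyBits, mul_div_assoc', ← Finset.sum_div]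
    rw [div_sub_div_same, div_le_iff₀ hl]
    linarith
  · refine le_trans (le_of_eq ?_) (hb (achieve hg0 hg1 hq₀.1 hq₀.2 n))
    rw [hM, hF]; simp only [pureOut]; ring

/-- The Holevo capacity of a tensor power as a supremum. -/
theorem holevoChi_eq {g : ℝ} (hg0 : 0 ≤ g) (hg1 : g ≤ 1) (n : ℕ) :
    holevoChi (gadc g 0) n = n * adFormula g := by
  obtain ⟨q, hq⟩ := Set.nonempty_Icc.mpr (zero_le_one' ℝ)
  exact (holevoValues_isLUB hg0 hg1 n).csSup_eq ⟨_, achieve hg0 hg1 hq.1 hq.2 n⟩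

/-- The per-use supremum over all block lengths. -/
theorem perUseValues_isLUB {g : ℝ} (hg0 : 0 ≤ g) (hg1 : g ≤ 1) :
    IsLUB (perUseValues (gadc g 0)) (adFormula g) := by
  refine ⟨?_, fun b hb => ?_⟩
  · rintro r ⟨n, hn, v, hv, rfl⟩
    rw [div_le_iff₀ (by exact_mod_cast hn)]
    rw [mul_comm]
    exact (holevoValues_isLUB hg0 hg1 n).1 hv
  · have hmem : b ∈ upperBounds (holevoValues (gadc g 0) 1) := fun v hv =>
      hb ⟨1, le_rfl, v, hv, by simp⟩
    simpa using (holevoValues_isLUB hg0 hg1 1).2 hmem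

/-- Classical capacity of the amplitude-damping channel. -/
theorem amplitudeDamping_capacity :
    ∀ γ : ℝ, 0 ≤ γ → γ ≤ 1 →
      (∀ n : ℕ, IsLUB (holevoValues (gadc γ 0) n) (n * adFormula γ)) ∧
      (∀ n : ℕ, holevoChi (gadc γ 0) n = n * holevoChi (gadc γ 0) 1) ∧
      IsLUB (perUseValues (gadc γ 0)) (adFormula γ) :=
  fun γ h0 h1 => ⟨holevoValues_isLUB h0 h1,
    fun n => by rw [holevoChi_eq h0 h1, holevoChi_eq h0 h1]; simp,
    perUseValues_isLUB h0 h1⟩

end Vale.Agent.P358
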