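import Vale.Agent.P358.Induction
import Mathlib.Analysis.Matrix.PosDef
import Mathlib.Analysis.Matrix.Spectrum

/-!
# Mixed inputs as families of vectors
-/

namespace Vale.Agent.P358

open Matrix Finset
open scoped ComplexOrder

namespace Ind

/-- The product Kraus operator with label `s`. -/
noncomputable def krausN (g : ℝ) (n : ℕ) (s : Cfg n) : Matrix (Cfg n) (Cfg n) ℂ :=
  fun x y => ∏ i, kr g (s i) (x i) (y i)

/-- The channel on `n` sites. -/
noncomputable def chanN (g : ℝ) (n : ℕ) (ρ : Matrix (Cfg n) (Cfg n) ℂ) :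
    Matrix (Cfg n) (Cfg n) ℂ :=
  ∑ s, krausN g n s * ρ * (krausN g n s)ᴴ

/-- The matrix `∑ k, |ψ k⟩⟨ψ k|`. -/
noncomputable def gram {n : ℕ} {κ : Type*} [Fintype κ] (ψ : κ → Cfg n → ℂ) :
    Matrix (Cfg n) (Cfg n) ℂ :=
  Matrix.of fun x y => ∑ k, ψ k x * star (ψ k y)

theorem exists_vectors {n : ℕ} {ρ : Matrix (Cfg n) (Cfg n) ℂ} (hρ : ρ.PosSemidef) :
    ∃ ψ : Cfg n → Cfg n → ℂ, ρ = gram ψ := by
  refine ⟨fun k x => (hρ.1.eigenvectorUnitary : Matrix (Cfg n) (Cfg n) ℂ) x k *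
    (Real.sqrt (hρ.1.eigenvalues k) : ℂ), ?_⟩
  conv_lhs => rw [hρ.1.spectral_theorem]
  ext x y
  simp only [gram, of_apply, Unitary.conjStarAlgAut_apply, Matrix.mul_apply, diagonal_apply, star_apply,
    mul_ite, mul_zero, sum_ite_eq', mem_univ, if_true, Function.comp_apply]
  refine sum_congr rfl fun k _ => ?_
  have hk : ((Real.sqrt (hρ.1.eigenvalues k) : ℂ)) * (Real.sqrt (hρ.1.eigenvalues k) : ℂ) =
      (hρ.1.eigenvalues k : ℂ) := by
    rw [← Complex.ofReal_mul, Real.mul_self_sqrt (hρ.eigenvalues_nonneg k)]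
  simp only [star_mul', RCLike.star_def, Complex.conj_ofReal]
  rw [RCLike.ofReal_eq_complex_ofReal, ← hk]
  ring

theorem chanN_gram (g : ℝ) {n : ℕ} {κ : Type*} [Fintype κ] (ψ : κ → Cfg n → ℂ) :
    chanN g n (gram ψ) = ∑ k, outN g n (ψ k) * (outN g n (ψ k))ᴴ := by
  ext x y
  have key : ∀ s : Cfg n, (krausN g n s * gram ψ * (krausN g n s)ᴴ) x y =
      ∑ k, outN g n (ψ k) x s * star (outN g n (ψ k) y s) := fun s => by
    simp only [krausN, gram, of_apply, outN, Matrix.mul_apply, conjTranspose_apply, sum_mul,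
      mul_sum, star_sum, star_mul']
    rw [sum_comm_cycle]
    refine sum_congr rfl fun k _ => ?_
    refine sum_congr rfl fun a _ => sum_congr rfl fun b _ => ?_
    ring
  simp only [chanN, Matrix.sum_apply, key]
  simp only [Matrix.mul_apply, conjTranspose_apply]
  exact sum_comm

theorem diag_sum_occ {n : ℕ} {κ : Type*} [Fintype κ] (ψ : κ → Cfg n → ℂ) (i : Fin n) :
    ∑ k, occ i (ψ k) =
      ∑ x, if x i = 1 then (∑ k, ψ k x * star (ψ k x)).re else 0 := by
  simp only [occ, Complex.re_sum, RCLike.star_def,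
    Complex.mul_conj, Complex.ofReal_re]
  rw [sum_comm]
  refine sum_congr rfl fun x _ => ?_
  split <;> simp

theorem diag_sum_mass {n : ℕ} {κ : Type*} [Fintype κ] (ψ : κ → Cfg n → ℂ) :
    ∑ k, mass (ψ k) = ∑ x, (∑ k, ψ k x * star (ψ k x)).re := by
  simp only [mass, Complex.re_sum, RCLike.star_def, Complex.mul_conj, Complex.ofReal_re]
  exact sum_comm

end Ind

end Vale.Agent.P358
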